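import Vale.Agent.P365.Z0.Bad
import Vale.Agent.P365.Z0.NearT
import Vale.Agent.P365.Z0.IntegDefs
import Vale.Agent.P365.Stat.Core

/-!
# P365 Z0 (T1.5), block Z5: the static theorem in the trap world, definitions and interfaces.

`TW` = trap world at FIXED labels. Good sites = `P365Z.Gd` (Z0/Bad.lean).
-/

set_option linter.all false

namespace P365Z0.S351

open P365L P365O P365T1 P365L.Stat P365L.Z622 Vale.Agent.P365.J376 Matrix Complex MeasureTheory Set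

/-- trap world at fixed labels: matrix, absorption, energy, product law, traps -/
structure TW (ι : Type) where
  A : Matrix ι ι ℝ
  e : ι → ℝ
  E : ℝ
  ν : ι → Measure ℝ
  T : Finset ι

variable {ι : Type} [Fintype ι] [DecidableEq ι]

/-- standing conditions: density of the traps at most `D`, and at least `c0` on
`[-(a' + δ0), a' + δ0]` -/
structure TW.Ok (w : TW ι) (D c0 δ0 a' : ℝ) : Prop where
  symm : w.A.IsSymm
  e_pos : ∀ x, 0 < w.e x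
  prob : ∀ x, IsProbabilityMeasure (w.ν x)
  dens : ∀ x ∈ w.T, DensLe D (w.ν x)
  flat : ∀ x ∈ w.T, DensGe c0 (a' + δ0) (w.ν x)

/-- complex potential -/
noncomputable def TW.W (w : TW ι) (v : ι → ℝ) : ι → ℂ := WV w.E w.e v

open Classical in
/-- good traps -/
noncomputable def TW.Gd (w : TW ι) (X d0 a' : ℝ) (v : ι → ℝ) : Finset ι :=
  w.T.filter fun z => P365Z.Gd w.A w.E w.e X d0 a' v z

/-- absorbed mass of a set -/
noncomputable def TW.Mb (w : TW ι) (B : Finset ι) (v : ι → ℝ) : ℝ :=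
  P365Z.SB w.A w.e B (w.W v)

open Classical in
/-- allowed centres: good traps whose two balls carry trap masses at most `L`, `L'` -/
noncomputable def TW.Oc (w : TW ι) (d : ι → ι → ℝ) (X d0 a' r r' L L' : ℝ) (v : ι → ℝ) :
    Finset ι :=
  (w.Gd X d0 a' v).filter fun x => w.Mb (Bl d x (2 * r) ∩ w.T) v ≤ L ∧
    w.Mb (Bl d x (2 * r') ∩ w.T) v ≤ L'

/-- truncated loss -/
noncomputable def TW.Lo (w : TW ι) (φ : ι → ℝ) (X d0 a' : ℝ) : ℝ :=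
  ∫ v, ∑ z ∈ w.Gd X d0 a' v, w.e z * (mm w.A (w.W v) z * muf w.A (w.W v) φ z ^ 2)
    ∂(Measure.pi w.ν)

/-- **Z2'**: pathwise near inequality restricted to allowed centres `O` and good sites `Gd`,
trap masses of the balls -/
def NearZ : Prop :=
  ∀ (ι : Type) [Fintype ι] [DecidableEq ι] (A : Matrix ι ι ℝ) (W : ι → ℂ) (φ : ι → ℝ)
    (d : ι → ι → ℝ) (T Gd O : Finset ι) (r r' L L' t t' : ℝ), A.IsSymm → (∀ x, (W x).im < 0) →
    (∀ x, d x x = 0) → (∀ x y, d x y = d y x) → (∀ x y z, d x z ≤ d x y + d y z) →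
    (∀ x y, |φ x - φ y| ≤ d x y) → 0 ≤ r → r ≤ r' → Gd ⊆ T → O ⊆ Gd → 0 ≤ L → 0 ≤ L' →
    (∀ w ∈ O, ∑ z ∈ Bl d w (2 * r) ∩ T, ee W z * mm A W z ≤ L) →
    (∀ w ∈ O, ∑ z ∈ Bl d w (2 * r') ∩ T, ee W z * mm A W z ≤ L') → 0 < t → 0 < t' →
    ∑ w ∈ O, ∑ z ∈ Bl d w r ∩ Gd, ee W z * ee W w * KK A W z w * (φ z - φ w) ^ 2 ≤
      4 / 3 * (32 * ∑ w ∈ O, ee W w * (mm A W w * muf A W φ w ^ 2) +
      16 * ∑ w ∈ O, ∑ z ∈ (Bl d w r' ∩ Gd).erase w,
        kap A W z w * (ee W z * ee W w * ‖Tm A W φ z w‖ ^ 2) +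
      2 / t * ∑ w ∈ O, ∑ z ∈ (Bl d w r' ∩ Gd).erase w,
        (kap A W z w + lamS A W (Bl d w r ∩ Gd) z w) *
          (ee W z * ee W w * ‖Tm A W φ z w‖ ^ 2) +
      t * r ^ 2 * ((L' * (2 * L + 13) + 2) * ∑ w ∈ O, ee W w * mm A W w) +
      2 / t' * ∑ w, ∑ z, ee W z * ee W w * ‖Tm A W φ z w‖ ^ 2 +
      2 * t' * r ^ 2 * (L * (∑ b, ∑ z ∈ (Bl d b (r' - r))ᶜ, ee W z * ee W b * KK A W z b +
        ∑ z ∈ Gdᶜ, ee W z * mm A W z)))

/-- **Z3c**: the kick sums of `NearZ` are controlled by the truncated loss; the constants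
depend only on `D c0 δ0 X d0 L'` (`J ≤ JL`, so `JL` alone is asked) -/
def JLZ : Prop :=
  ∀ D c0 δ0 X d0 L' : ℝ, 0 < D → 0 < c0 → 0 < δ0 → 0 < X → 0 < d0 → 0 < L' →
    ∃ C X' d' : ℝ, 0 < C ∧ 0 < X' ∧ 0 < d' ∧
    ∀ (ι : Type) [Fintype ι] [DecidableEq ι] (w : TW ι) (φ : ι → ℝ) (d : ι → ι → ℝ)
      (a' r r' L : ℝ), w.Ok D c0 δ0 a' →
      (∀ x, d x x = 0) → (∀ x y, d x y = d y x) → (∀ x y z, d x z ≤ d x y + d y z) →
      0 ≤ r → r ≤ r' →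
      IB (Measure.pi w.ν) (fun v => ∑ x ∈ w.Oc d X d0 a' r r' L L' v,
        ∑ z ∈ (Bl d x r' ∩ w.Gd X d0 a' v).erase x,
          (kap w.A (w.W v) z x + lamS w.A (w.W v) (Bl d x r ∩ w.Gd X d0 a' v) z x) *
            (ee (w.W v) z * ee (w.W v) x * ‖Tm w.A (w.W v) φ z x‖ ^ 2)) (C * w.Lo φ X' d' a')

end P365Z0.S351
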