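import Vale.Agent.P365.Z0.S351.Path
import Vale.Agent.P365.Z0.OneL

/-!
# P365 Z0 (T1.5), block Z5: expectations over the product law of the trap world.
-/

set_option linter.all false

namespace P365Z0.S351

open P365L P365O P365T1 P365L.Stat P365L.Z622 Vale.Agent.P365.J376 Matrix Complex MeasureTheory Set
open scoped ENNReal

variable {ι : Type} [Fintype ι] [DecidableEq ι] {A : Matrix ι ι ℝ} {E : ℝ} {e : ι → ℝ}

/-! ### bounded measurable functions along `WV E e` -/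

omit [DecidableEq ι] in
theorem bm_int {f : (ι → ℝ) → ℝ} (hf : BM f) (μ : Measure (ι → ℝ)) [IsFiniteMeasure μ] :
    Integrable f μ := by
  obtain ⟨M, hM⟩ := hf.bdd
  exact Integrable.of_bound hf.meas.aestronglyMeasurable M (Filter.Eventually.of_forall hM)

theorem bm_mm (hA : A.IsSymm) (he : ∀ x, 0 < e x) (z : ι) :
    BM (fun v => mm A (WV E e v) z) := by
  simp only [P365Z.WV_eq_Wc]
  exact BM_mm hA he z

theorem bm_KK (hA : A.IsSymm) (he : ∀ x, 0 < e x) (z w : ι) :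
    BM (fun v => KK A (WV E e v) z w) := by
  simp only [P365Z.WV_eq_Wc]
  exact BM_KK hA he z w

theorem bm_Tsq (hA : A.IsSymm) (he : ∀ x, 0 < e x) (φ : ι → ℝ) (z w : ι) :
    BM (fun v => ‖Tm A (WV E e v) φ z w‖ ^ 2) := by
  simp only [P365Z.WV_eq_Wc]
  exact BM_Tsq hA he z w

theorem bm_loss (hA : A.IsSymm) (he : ∀ x, 0 < e x) (φ : ι → ℝ) (z : ι) :
    BM (fun v => mm A (WV E e v) z * muf A (WV E e v) φ z ^ 2) := by
  simp only [P365Z.WV_eq_Wc]
  exact BM_loss hA he z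

theorem bm_kap (hA : A.IsSymm) (he : ∀ x, 0 < e x) (z w : ι) :
    BM (fun v => kap A (WV E e v) z w) := by
  simp only [P365Z.WV_eq_Wc]
  exact BM_kap hA he z w

theorem ee_WV (v : ι → ℝ) (x : ι) : ee (WV E e v) x = e x := by
  unfold ee
  simp [WV]

theorem tm_WV (S : Finset ι) (v : ι → ℝ) :
    tm A (WV E e v) S = ∑ x ∈ S, e x * mm A (WV E e v) x := by
  unfold tm
  exact Finset.sum_congr rfl fun x _ => by rw [ee_WV]

theorem tm_eq_SB (S : Finset ι) (v : ι → ℝ) :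
    tm A (WV E e v) S = P365Z.SB A e S (WV E e v) := tm_WV S v

theorem bm_tm (hA : A.IsSymm) (he : ∀ x, 0 < e x) (S : Finset ι) :
    BM (fun v => tm A (WV E e v) S) := by
  simp only [tm_WV]
  exact BM.sum _ fun y _ => (bm_mm hA he y).cmul (e y)

theorem bm_En (hA : A.IsSymm) (he : ∀ x, 0 < e x) (φ : ι → ℝ) :
    BM (fun v => En A (WV E e v) φ) := by
  simp only [En_eq_ee, ee_WV]
  refine BM.sum _ fun w _ => BM.sum _ fun z _ => ?_
  have h := ((bm_KK (E := E) hA he z w).cmul (e z * e w)).mul (BM.const ((φ z - φ w) ^ 2))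
  exact h

theorem bm_Tm_sum (hA : A.IsSymm) (he : ∀ x, 0 < e x) (φ : ι → ℝ) :
    BM (fun v => ∑ w, ∑ z, ee (WV E e v) z * ee (WV E e v) w * ‖Tm A (WV E e v) φ z w‖ ^ 2) := by
  simp only [ee_WV]
  exact BM.sum _ fun w _ => BM.sum _ fun z _ => (bm_Tsq hA he φ z w).cmul (e z * e w)

theorem bm_farT (hA : A.IsSymm) (he : ∀ x, 0 < e x) (d : ι → ι → ℝ) (ρ : ℝ) (T : Finset ι) :
    BM (fun v => farT A (WV E e v) d ρ T) := by
  unfold farT
  simp only [ee_WV]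
  exact BM.sum _ fun x _ => BM.sum _ fun z _ => (bm_KK hA he z x).cmul (e z * e x)

theorem bm_crowd (hA : A.IsSymm) (he : ∀ x, 0 < e x) (d : ι → ι → ℝ) (ρ : ℝ) (T : Finset ι) :
    BM (fun v => crowd A (WV E e v) d ρ T) := by
  unfold crowd
  simp only [ee_WV]
  exact BM.sum _ fun x _ => ((bm_mm hA he x).cmul (e x)).mul (bm_tm hA he _)

omit [Fintype ι] in
/-- sums over a random set -/
theorem sum_filter_ind {S : Finset ι} {G : (ι → ℝ) → ι → Prop} [∀ v, DecidablePred (G v)]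
    (F : ι → (ι → ℝ) → ℝ) (v : ι → ℝ) :
    ∑ x ∈ S.filter (G v), F x v = ∑ x ∈ S, {v : ι → ℝ | G v x}.indicator (F x) v := by
  rw [Finset.sum_filter]
  refine Finset.sum_congr rfl fun x _ => ?_
  by_cases h : G v x
  · rw [if_pos h, Set.indicator_of_mem (show v ∈ {v : ι → ℝ | G v x} from h)]
  · rw [if_neg h, Set.indicator_of_notMem (show v ∉ {v : ι → ℝ | G v x} from h)]

omit [DecidableEq ι] in
theorem bm_filter {S : Finset ι} {G : (ι → ℝ) → ι → Prop} [∀ v, DecidablePred (G v)]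
    (hG : ∀ x, MeasurableSet {v : ι → ℝ | G v x}) {F : ι → (ι → ℝ) → ℝ}
    (hF : ∀ x ∈ S, BM (F x)) : BM fun v => ∑ x ∈ S.filter (G v), F x v := by
  classical
  simp only [sum_filter_ind]
  exact BM.sum _ fun x hx => (hF x hx).ind (hG x)

theorem measurable_Mb (w : TW ι) (B : Finset ι) : Measurable fun v => w.Mb B v := by
  unfold TW.Mb TW.W
  exact P365Z.measurable_SB w.e B

/-- membership in the allowed centres -/
theorem mem_Oc {w : TW ι} {d : ι → ι → ℝ} {X d0 a' r r' L L' : ℝ} {v : ι → ℝ} {x : ι} :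
    x ∈ w.Oc d X d0 a' r r' L L' v ↔ x ∈ w.Gd X d0 a' v ∧
      (w.Mb (Bl d x (2 * r) ∩ w.T) v ≤ L ∧ w.Mb (Bl d x (2 * r') ∩ w.T) v ≤ L') := by
  classical
  unfold TW.Oc
  rw [Finset.mem_filter]

theorem mem_Gd {w : TW ι} {X d0 a' : ℝ} {v : ι → ℝ} {x : ι} :
    x ∈ w.Gd X d0 a' v ↔ x ∈ w.T ∧ P365Z.Gd w.A w.E w.e X d0 a' v x := by
  classical
  unfold TW.Gd
  rw [Finset.mem_filter]

theorem Gd_sub (w : TW ι) (X d0 a' : ℝ) (v : ι → ℝ) : w.Gd X d0 a' v ⊆ w.T := fun x hx =>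
  (mem_Gd.1 hx).1

theorem Oc_sub (w : TW ι) (d : ι → ι → ℝ) (X d0 a' r r' L L' : ℝ) (v : ι → ℝ) :
    w.Oc d X d0 a' r r' L L' v ⊆ w.Gd X d0 a' v := fun x hx => (mem_Oc.1 hx).1

theorem Gd_mono (hA : A.IsSymm) (he : ∀ x, 0 < e x) {X X' d0 d' a' : ℝ} (hX : X ≤ X')
    (hd : d' ≤ d0) {v : ι → ℝ} {z : ι} (h : P365Z.Gd A E e X d0 a' v z) :
    P365Z.Gd A E e X' d' a' v z :=
  ⟨h.tuned.trans (mul_le_mul_of_nonneg_right hX (P365Z.pw_pos (E := E) hA he v z).le),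
    hd.trans h.big, h.flat⟩

/-- loss over a random subset of the good traps: bounded measurable -/
theorem bm_los_Gd (w : TW ι) (hA : w.A.IsSymm) (he : ∀ x, 0 < w.e x) (φ : ι → ℝ)
    (X d0 a' : ℝ) : BM fun v => los w.A (w.W v) φ (w.Gd X d0 a' v) := by
  classical
  unfold los TW.W TW.Gd
  simp only [ee_WV]
  exact bm_filter (fun x => P365Z.measurableSet_Gd X d0 a' x)
    fun x _ => (bm_loss hA he φ x).cmul (w.e x)

theorem bm_los_Oc (w : TW ι) (hA : w.A.IsSymm) (he : ∀ x, 0 < w.e x) (φ : ι → ℝ)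
    (d : ι → ι → ℝ) (X d0 a' r r' L L' : ℝ) :
    BM fun v => los w.A (w.W v) φ (w.Oc d X d0 a' r r' L L' v) := by
  classical
  have h : ∀ v, los w.A (w.W v) φ (w.Oc d X d0 a' r r' L L' v) =
      ∑ x ∈ w.T.filter (fun x => P365Z.Gd w.A w.E w.e X d0 a' v x ∧
        (w.Mb (Bl d x (2 * r) ∩ w.T) v ≤ L ∧ w.Mb (Bl d x (2 * r') ∩ w.T) v ≤ L')),
        w.e x * (mm w.A (WV w.E w.e v) x * muf w.A (WV w.E w.e v) φ x ^ 2) := by
    intro v
    unfold los
    refine Finset.sum_congr ?_ fun x _ => ?_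
    · ext x
      rw [mem_Oc, mem_Gd, Finset.mem_filter, and_assoc]
    · unfold TW.W
      rw [ee_WV]
  simp only [h]
  refine bm_filter (G := fun v x => P365Z.Gd w.A w.E w.e X d0 a' v x ∧
        (w.Mb (Bl d x (2 * r) ∩ w.T) v ≤ L ∧ w.Mb (Bl d x (2 * r') ∩ w.T) v ≤ L'))
    (fun x => ?_) fun x _ => (bm_loss hA he φ x).cmul (w.e x)
  have h1 := P365Z.measurableSet_Gd (A := w.A) (E := w.E) (e := w.e) X d0 a' x
  have h2 := measurableSet_le (measurable_Mb w (Bl d x (2 * r) ∩ w.T))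
    (measurable_const (a := L))
  have h3 := measurableSet_le (measurable_Mb w (Bl d x (2 * r') ∩ w.T))
    (measurable_const (a := L'))
  exact h1.inter (h2.inter h3)

theorem los_nonneg (hA : A.IsSymm) {W : ι → ℂ} (hW : ∀ x, (W x).im < 0) (φ : ι → ℝ) (z : ι) :
    0 ≤ ee W z * (mm A W z * muf A W φ z ^ 2) :=
  mul_nonneg (ee_nonneg hW z) (mul_nonneg (mm_pos hA hW z).le (sq_nonneg _))

theorem W_neg (w : TW ι) (he : ∀ x, 0 < w.e x) (v : ι → ℝ) (x : ι) : (w.W v x).im < 0 :=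
  WV_im_neg he v x

/-- **(4')** the loss of the allowed centres is at most the truncated loss -/
theorem ib_los (w : TW ι) {D c0 δ0 a' : ℝ} (h : w.Ok D c0 δ0 a') (φ : ι → ℝ)
    (d : ι → ι → ℝ) {X X' d0 d' r r' L L' : ℝ} (hX : X ≤ X') (hd : d' ≤ d0) :
    IB (Measure.pi w.ν) (fun v => los w.A (w.W v) φ (w.Oc d X d0 a' r r' L L' v))
      (w.Lo φ X' d' a') := by
  haveI := h.prob
  refine ⟨bm_int (bm_los_Oc w h.symm h.e_pos φ d X d0 a' r r' L L') _, ?_⟩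
  have hL : w.Lo φ X' d' a' = ∫ v, los w.A (w.W v) φ (w.Gd X' d' a' v) ∂(Measure.pi w.ν) := by
    unfold TW.Lo los
    refine integral_congr_ae (Filter.Eventually.of_forall fun v => ?_)
    refine Finset.sum_congr rfl fun z _ => ?_
    unfold TW.W
    rw [ee_WV]
  rw [hL]
  refine integral_mono (bm_int (bm_los_Oc w h.symm h.e_pos φ d X d0 a' r r' L L') _)
    (bm_int (bm_los_Gd w h.symm h.e_pos φ X' d' a') _) fun v => ?_
  have hW := W_neg w h.e_pos v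
  refine Finset.sum_le_sum_of_subset_of_nonneg (fun x hx => ?_)
    fun x _ _ => los_nonneg h.symm hW φ x
  have h1 := mem_Gd.1 (Oc_sub w d X d0 a' r r' L L' v hx)
  exact mem_Gd.2 ⟨h1.1, Gd_mono h.symm h.e_pos hX hd h1.2⟩

theorem Lo_nonneg (w : TW ι) {D c0 δ0 a' : ℝ} (h : w.Ok D c0 δ0 a') (φ : ι → ℝ) (X d0 : ℝ) :
    0 ≤ w.Lo φ X d0 a' := by
  unfold TW.Lo
  refine integral_nonneg fun v => Finset.sum_nonneg fun z _ => ?_
  have hW := W_neg w h.e_pos v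
  exact mul_nonneg (h.e_pos z).le (mul_nonneg (mm_pos h.symm hW z).le (sq_nonneg _))

/-! ### bounds -/

theorem integral_le_of_lint {μ : Measure (ι → ℝ)} {f : (ι → ℝ) → ℝ} (hf : ∀ v, 0 ≤ f v)
    (hm : Measurable f) {b : ℝ} (hb : 0 ≤ b)
    (h : ∫⁻ v, ENNReal.ofReal (f v) ∂μ ≤ ENNReal.ofReal b) : ∫ v, f v ∂μ ≤ b := by
  rw [integral_eq_lintegral_of_nonneg_ae (Filter.Eventually.of_forall hf) hm.aestronglyMeasurable]
  exact ENNReal.toReal_le_of_le_ofReal hb h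

/-- **(1)** mass of a set -/
theorem ib_tm (w : TW ι) (hA : w.A.IsSymm) (he : ∀ x, 0 < w.e x)
    (hp : ∀ x, IsProbabilityMeasure (w.ν x)) (B : Finset ι) {D : ι → ℝ}
    (hD0 : ∀ x ∈ B, 0 ≤ D x) (hD : ∀ x ∈ B, DensLe (D x) (w.ν x)) :
    IB (Measure.pi w.ν) (fun v => tm w.A (w.W v) B) (∑ x ∈ B, w.e x * (Real.pi * D x)) := by
  haveI := hp
  refine ⟨bm_int (bm_tm hA he B) _, ?_⟩
  refine integral_le_of_lint (fun v => tm_nonneg hA (W_neg w he v) B) (bm_tm hA he B).meas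
    (Finset.sum_nonneg fun x hx => mul_nonneg (he x).le
      (mul_nonneg Real.pi_pos.le (hD0 x hx))) ?_
  have h := P365Z.lint_SB_le (A := w.A) (E := w.E) (e := w.e) (ν := w.ν) hA he
    (b := w.e) (fun x => (he x).le) B hD0 hD
  unfold TW.W
  simp only [tm_eq_SB]
  exact h

/-- **(2)** mass of the traps which are not good -/
theorem ib_bad (w : TW ι) {D c0 δ0 a' : ℝ} (h : w.Ok D c0 δ0 a') (hD : 0 ≤ D)
    {X d0 a σ : ℝ} (hX : 0 < X) (hd0 : 0 ≤ d0) (haa : a < a') (hσ : 0 ≤ σ) :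
    IB (Measure.pi w.ν) (fun v => tm w.A (w.W v) (w.T \ w.Gd X d0 a' v))
      (∑ x ∈ w.T, w.e x * (d0 + 2 * Real.pi * D / X + σ / (a' - a) ^ 2 +
        Real.pi * D * (Measure.pi w.ν (P365Z.Off w.A w.E w.e a σ x)).toReal)) := by
  classical
  haveI := h.prob
  have hA := h.symm
  have he := h.e_pos
  have hpi := Real.pi_pos
  have hset : ∀ v, tm w.A (w.W v) (w.T \ w.Gd X d0 a' v) =
      ∑ x ∈ w.T.filter (fun x => ¬ P365Z.Gd w.A w.E w.e X d0 a' v x),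
        w.e x * mm w.A (WV w.E w.e v) x := by
    intro v
    unfold TW.W
    rw [tm_WV]
    refine Finset.sum_congr ?_ fun x _ => rfl
    ext x
    rw [Finset.mem_sdiff, mem_Gd, Finset.mem_filter]
    tauto
  have hms : ∀ x, MeasurableSet {v : ι → ℝ | ¬ P365Z.Gd w.A w.E w.e X d0 a' v x} := fun x =>
    (P365Z.measurableSet_Gd X d0 a' x).compl
  have hmm : ∀ x, BM fun v => mm w.A (WV w.E w.e v) x := fun x => bm_mm hA he x
  have hsum : ∀ v, tm w.A (w.W v) (w.T \ w.Gd X d0 a' v) = ∑ x ∈ w.T, w.e x *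
      {v : ι → ℝ | ¬ P365Z.Gd w.A w.E w.e X d0 a' v x}.indicator
        (fun v => mm w.A (WV w.E w.e v) x) v := by
    intro v
    rw [hset, Finset.sum_filter]
    refine Finset.sum_congr rfl fun x _ => ?_
    by_cases hx : P365Z.Gd w.A w.E w.e X d0 a' v x
    · rw [if_neg (not_not.2 hx), Set.indicator_of_notMem, mul_zero]
      exact fun hv => hv hx
    · rw [if_pos hx, Set.indicator_of_mem]
      exact hx
  simp only [hsum]
  refine IB.sum _ fun x hx => ?_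
  refine IB.cmul ?_ (he x).le
  refine ⟨bm_int ((hmm x).ind (hms x)) _, ?_⟩
  have hnn : ∀ v, 0 ≤ {v : ι → ℝ | ¬ P365Z.Gd w.A w.E w.e X d0 a' v x}.indicator
        (fun v => mm w.A (WV w.E w.e v) x) v := fun v =>
    Set.indicator_nonneg (fun v _ => (mm_pos hA (W_neg w he v) x).le) v
  have hb := P365Z.bad_mass (A := w.A) (E := w.E) (e := w.e) (ν := w.ν) hA he hD
    (h.dens x hx) hX hd0 haa hσ
  have hσ2 : 0 ≤ σ / (a' - a) ^ 2 := by positivity
  have hX2 : 0 ≤ 2 * Real.pi * D / X := by positivity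
  have hpD : 0 ≤ Real.pi * D := by positivity
  refine integral_le_of_lint hnn ((hmm x).ind (hms x)).meas
    (add_nonneg (by positivity) (mul_nonneg hpD ENNReal.toReal_nonneg)) ?_
  refine le_trans (le_of_eq ?_) (hb.trans (le_of_eq ?_))
  · refine lintegral_congr fun v => ?_
    by_cases hv : v ∈ {v : ι → ℝ | ¬ P365Z.Gd w.A w.E w.e X d0 a' v x}
    · rw [Set.indicator_of_mem hv, Set.indicator_of_mem hv]
    · rw [Set.indicator_of_notMem hv, Set.indicator_of_notMem hv, ENNReal.ofReal_zero]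
  · rw [ENNReal.ofReal_add (by positivity) (mul_nonneg hpD ENNReal.toReal_nonneg),
      ENNReal.ofReal_mul hpD, ENNReal.ofReal_toReal (measure_ne_top _ _)]

/-- **(3)** crowding -/
theorem ib_crowd (w : TW ι) {D c0 δ0 a' : ℝ} (h : w.Ok D c0 δ0 a') (hD : 0 ≤ D)
    (d : ι → ι → ℝ) (ρ : ℝ) :
    IB (Measure.pi w.ν) (fun v => crowd w.A (w.W v) d ρ w.T)
      (∑ x ∈ w.T, w.e x * (Real.pi * D *
        (Real.pi * D * ∑ y ∈ Bl d x ρ ∩ w.T, w.e y + 1))) := by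
  classical
  haveI := h.prob
  have hA := h.symm
  have he := h.e_pos
  have hpD : 0 ≤ Real.pi * D := mul_nonneg Real.pi_pos.le hD
  have hsum : ∀ v, crowd w.A (w.W v) d ρ w.T = ∑ x ∈ w.T, w.e x *
      (mm w.A (WV w.E w.e v) x * P365Z.SB w.A w.e (Bl d x ρ ∩ w.T) (WV w.E w.e v)) := by
    intro v
    unfold crowd TW.W
    refine Finset.sum_congr rfl fun x _ => ?_
    rw [ee_WV, tm_eq_SB, mul_assoc]
  simp only [hsum]
  refine IB.sum _ fun x hx => IB.cmul ?_ (he x).le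
  have hbm : BM fun v => mm w.A (WV w.E w.e v) x *
      P365Z.SB w.A w.e (Bl d x ρ ∩ w.T) (WV w.E w.e v) := by
    refine (bm_mm hA he x).mul ?_
    have := bm_tm (A := w.A) (E := w.E) hA he (Bl d x ρ ∩ w.T)
    simpa only [tm_eq_SB] using this
  refine ⟨bm_int hbm _, ?_⟩
  have hnn : ∀ v, 0 ≤ mm w.A (WV w.E w.e v) x *
      P365Z.SB w.A w.e (Bl d x ρ ∩ w.T) (WV w.E w.e v) := fun v =>
    mul_nonneg (mm_pos hA (W_neg w he v) x).le (P365Z.SB_nonneg hA he (fun x => (he x).le) _ v)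
  have hS0 : 0 ≤ ∑ y ∈ Bl d x ρ ∩ w.T, w.e y * (Real.pi * D) :=
    Finset.sum_nonneg fun y _ => mul_nonneg (he y).le hpD
  have hb := P365Z.lint_mm_SB_le (A := w.A) (E := w.E) (e := w.e) (ν := w.ν) hA he
    (b := w.e) (fun x => (he x).le) (fun x => le_rfl) (Bl d x ρ ∩ w.T) (D := fun _ => D)
    (fun y _ => hD) (fun y hy => h.dens y (Finset.mem_inter.1 hy).2) (h.dens x hx)
  have hval : ∑ y ∈ Bl d x ρ ∩ w.T, w.e y * (Real.pi * D) =
      Real.pi * D * ∑ y ∈ Bl d x ρ ∩ w.T, w.e y := by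
    rw [Finset.mul_sum]
    exact Finset.sum_congr rfl fun y _ => mul_comm _ _
  rw [← hval]
  refine integral_le_of_lint hnn hbm.meas (mul_nonneg hpD (by linarith)) ?_
  rw [ENNReal.ofReal_mul hpD]
  refine le_trans (le_of_eq (lintegral_congr fun v => ?_)) hb
  have hmm0 : 0 ≤ mm w.A (WV w.E w.e v) x := (mm_pos hA (W_neg w he v) x).le
  rw [ENNReal.ofReal_mul hmm0]

end P365Z0.S351
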