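import Vale.Agent.P365.Z0.S351.Tot
import Vale.Agent.P365.Z0.S351.Ex159
import Vale.Agent.P365.Z0.OneJ
import Vale.Agent.P365.Z0.Loss2

/-!
# P365 Z0 (T1.5), block Z5: the expectations at fixed labels (`ExZ`).
-/

set_option linter.all false

namespace P365Z0.S351

open P365L P365O P365T1 P365L.Stat P365L.Z622 Vale.Agent.P365.J376 Matrix Complex MeasureTheory Set
open scoped ENNReal

variable {ι : Type} [Fintype ι] [DecidableEq ι] {A : Matrix ι ι ℝ} {E : ℝ} {e : ι → ℝ}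

theorem Ls_eq_Lz (W : ι → ℂ) (f : ι → ℝ) (z : ι) :
    P365Z.Loss327.Ls A W f z = P365Z.Lz A W f z := rfl

/-- on a good site the loss is at most `(1 + X²)/4` times the kept loss -/
theorem loss_le_Lz (hA : A.IsSymm) (he : ∀ x, 0 < e x) {X d0 a' : ℝ} (hX : 0 < X)
    {v : ι → ℝ} {z : ι} (hg : P365Z.Gd A E e X d0 a' v z) (φ : ι → ℝ) :
    mm A (WV E e v) z * muf A (WV E e v) φ z ^ 2 ≤
      (1 + X ^ 2) / 4 * P365Z.Lz A (WV E e v) φ z := by
  have hW := WV_im_neg (E := E) he v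
  have hw := P365Z.pw_pos (E := E) hA he v z
  have h1 := norm_Gr_self (E := E) hA he v z
  have h2 := P365Z.Loss327.Ls_mul hA hW φ z
  rw [Ls_eq_Lz] at h2
  have h3 := P365Z.mm_pt (E := E) hA he v z
  have h4 := hg.tuned
  set G := ‖Gr A (WV E e v) z z‖ ^ 2 with hG
  set p := P365Z.pc A E e v z
  set q := P365Z.pw A E e v z
  have hs : 0 < (v z - p) ^ 2 + q ^ 2 := by positivity
  have hG0 : 0 < G := by
    by_contra hcon
    have : G * ((v z - p) ^ 2 + q ^ 2) ≤ 0 := mul_nonpos_of_nonpos_of_nonneg (not_lt.1 hcon) hs.le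
    linarith
  have hm : mm A (WV E e v) z = q * G := by
    rw [h3, div_eq_iff hs.ne', mul_assoc, h1, mul_one]
  have h5 : (v z - p) ^ 2 ≤ X ^ 2 * q ^ 2 := by
    rw [← sq_abs (v z - p), ← mul_pow]
    exact pow_le_pow_left₀ (abs_nonneg _) h4 2
  -- 1 ≤ (1 + X²) q² G
  have h6 : 1 ≤ (1 + X ^ 2) * (q ^ 2 * G) := by
    have : G * ((v z - p) ^ 2 + q ^ 2) ≤ G * (X ^ 2 * q ^ 2 + q ^ 2) :=
      mul_le_mul_of_nonneg_left (by linarith) hG0.le
    nlinarith [this]
  have h7 : P365Z.Lz A (WV E e v) φ z =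
      4 * (q ^ 2 * G) * (mm A (WV E e v) z * muf A (WV E e v) φ z ^ 2) := by
    have h8 : P365Z.Lz A (WV E e v) φ z * G =
        4 * (q ^ 2 * G) * (mm A (WV E e v) z * muf A (WV E e v) φ z ^ 2) * G := by
      rw [h2]
      nth_rewrite 1 [hm]
      ring
    exact mul_right_cancel₀ hG0.ne' h8
  have h9 : 0 ≤ mm A (WV E e v) z * muf A (WV E e v) φ z ^ 2 :=
    mul_nonneg (mm_pos hA hW z).le (sq_nonneg _)
  rw [h7]
  have h10 : (1 + X ^ 2) / 4 * (4 * (q ^ 2 * G) *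
      (mm A (WV E e v) z * muf A (WV E e v) φ z ^ 2)) = ((1 + X ^ 2) * (q ^ 2 * G)) *
      (mm A (WV E e v) z * muf A (WV E e v) φ z ^ 2) := by ring
  rw [h10]
  exact le_mul_of_one_le_left h9 h6

theorem Lz_nonneg (hA : A.IsSymm) {W : ι → ℂ} (hW : ∀ x, (W x).im < 0) (φ : ι → ℝ) (z : ι) :
    0 ≤ P365Z.Lz A W φ z := P365Z.Loss327.Ls_nonneg hA hW φ z

theorem int_Lz (w : TW ι) (hA : w.A.IsSymm) (he : ∀ x, 0 < w.e x)
    (hp : ∀ x, IsProbabilityMeasure (w.ν x)) (φ : ι → ℝ) (x : ι) :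
    Integrable (fun v => P365Z.Lz w.A (w.W v) φ x) (Measure.pi w.ν) := by
  haveI := hp
  exact P365Z.Loss327.integrable_Ls hA (Measure.pi w.ν) w.E he φ x

/-- **`ExZ`** -/
theorem exZ : ExZ where
  tot := by
    intro ι _ _ w D c0 δ0 a' hD h
    exact ib_tm w h.symm h.e_pos h.prob w.T (D := fun _ => D) (fun _ _ => hD.le) h.dens
  out := by
    intro ι _ _ w D c0 δ0 a' hD h Dn hDn
    exact ib_tm w h.symm h.e_pos h.prob w.Tᶜ (D := Dn) (fun x hx => (hDn x hx).1)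
      fun x hx => (hDn x hx).2
  bad := by
    intro ι _ _ w D c0 δ0 a' hD h X d0 a σ hX hd0 haa hσ
    exact ib_bad w h hD.le hX hd0.le haa hσ
  crowd := by
    intro ι _ _ w D c0 δ0 a' hD h d ρ
    refine (ib_crowd w h hD.le d ρ).mono (le_of_eq ?_)
    refine Finset.sum_congr rfl fun x _ => ?_
    rw [← Finset.sum_mul, mul_comm (∑ y ∈ Bl d x ρ ∩ w.T, w.e y) (Real.pi * D)]
  en := by
    intro ι _ _ w D c0 δ0 a' hD h φ
    haveI := h.prob
    exact bm_int (bm_En h.symm h.e_pos φ) _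
  los := by
    intro ι _ _ w D c0 δ0 a' hD h φ X d0 hX hd0
    haveI := h.prob
    have hi : ∀ x, Integrable (fun v => P365Z.Lz w.A (w.W v) φ x) (Measure.pi w.ν) :=
      int_Lz w h.symm h.e_pos h.prob φ
    refine ⟨bm_int (bm_los_Gd w h.symm h.e_pos φ X d0 a') _, ?_⟩
    rw [← integral_const_mul]
    refine integral_mono (bm_int (bm_los_Gd w h.symm h.e_pos φ X d0 a') _) ?_ fun v => ?_
    · exact (integrable_finset_sum _ fun x _ => (hi x).const_mul _).const_mul _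
    · have hW := W_neg w h.e_pos v
      show los w.A (w.W v) φ (w.Gd X d0 a' v) ≤
        (1 + X ^ 2) / 4 * ∑ x ∈ w.T, w.e x * P365Z.Lz w.A (w.W v) φ x
      have h1 : los w.A (w.W v) φ (w.Gd X d0 a' v) ≤
          ∑ x ∈ w.Gd X d0 a' v, (1 + X ^ 2) / 4 * (w.e x * P365Z.Lz w.A (w.W v) φ x) := by
        unfold los
        refine Finset.sum_le_sum fun x hx => ?_
        have h2 := loss_le_Lz h.symm h.e_pos hX (mem_Gd.1 hx).2 φ
        have h3 : ee (w.W v) x = w.e x := ee_WV v x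
        rw [h3]
        have h4 := mul_le_mul_of_nonneg_left h2 (h.e_pos x).le
        refine h4.trans (le_of_eq ?_)
        unfold TW.W
        ring
      refine h1.trans ?_
      rw [Finset.mul_sum]
      refine Finset.sum_le_sum_of_subset_of_nonneg (Gd_sub w X d0 a' v) fun x _ _ => ?_
      exact mul_nonneg (by positivity) (mul_nonneg (h.e_pos x).le (Lz_nonneg h.symm hW φ x))
  lz := by
    intro ι _ _ w D c0 δ0 a' hD h φ x
    exact int_Lz w h.symm h.e_pos h.prob φ x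

end P365Z0.S351
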