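import Vale.Agent.P365.Z0.S351.Tot

/-!
# P365 Z0 (T1.5), block Z5: choice of the parameters.
-/

set_option linter.all false

namespace P365Z0.S351

theorem par_big {c ε : ℝ} (hc : 0 ≤ c) (hε : 0 < ε) : ∃ x : ℝ, 0 < x ∧ c / x ≤ ε := by
  refine ⟨c / ε + 1, by positivity, ?_⟩
  rw [div_le_iff₀ (by positivity)]
  have h : ε * (c / ε) = c := by field_simp
  nlinarith

theorem par_big2 {c ε : ℝ} (hc : 0 ≤ c) (hε : 0 < ε) : ∃ x : ℝ, 0 < x ∧ c / x ^ 2 ≤ ε := by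
  refine ⟨c / ε + 1, by positivity, ?_⟩
  rw [div_le_iff₀ (by positivity)]
  have h : ε * (c / ε) = c := by field_simp
  have h0 : 0 ≤ c / ε := by positivity
  nlinarith [mul_nonneg hε.le (mul_nonneg h0 h0), mul_nonneg hε.le h0]

theorem par_small {c ε : ℝ} (hc : 0 ≤ c) (hε : 0 < ε) : ∃ x : ℝ, 0 < x ∧ x ≤ 1 ∧ c * x ≤ ε := by
  refine ⟨min 1 (ε / (c + 1)), lt_min one_pos (by positivity), min_le_left _ _, ?_⟩
  calc c * min 1 (ε / (c + 1)) ≤ c * (ε / (c + 1)) :=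
        mul_le_mul_of_nonneg_left (min_le_right _ _) hc
    _ ≤ (c + 1) * (ε / (c + 1)) := mul_le_mul_of_nonneg_right (by linarith) (by positivity)
    _ = ε := by field_simp

theorem Sc_nonneg {D C0 R : ℝ} (hD : 0 < D) (hC : 0 < C0) : 0 ≤ Sc D C0 R := by
  unfold Sc
  have := Real.pi_pos
  positivity

/-- `Tot` is affine in `η` -/
theorem Tot_eq (D C0 cg κ wd R L t' X d0 Q L' t CJ X' η : ℝ) :
    Tot D C0 cg κ wd R L t' X d0 Q L' t CJ X' η =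
      C0 / cg / R ^ 2 + Sc D C0 R / L + (1 / (cg * κ ^ 2) * (4 / 3) * (C0 / 2)) / t' +
      (6 + 1 / (cg * κ ^ 2) * (4 / 3) * (24 * t' * R ^ 2 * L)) * d0 +
      ((6 + 1 / (cg * κ ^ 2) * (4 / 3) * (24 * t' * R ^ 2 * L)) * (2 * Real.pi * D)) / X +
      (1 / (cg * κ ^ 2) * (4 / 3) * (8 * t' * R ^ 2 * L * C0 / cg)) / Q ^ 2 +
      Sc D C0 (R + Q) / L' +
      (1 / (cg * κ ^ 2) * (4 / 3) * (4 * R ^ 2 * ((L' * (2 * L + 13) + 2) *
        (3 * Real.pi * D)))) * t +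
      (6 * (1 / wd + Real.pi * D) + Real.pi + 1 / (cg * κ ^ 2) * (4 / 3) *
        (32 * ((1 + X ^ 2) / 4) + (16 + 2 / t) * (CJ * ((1 + X' ^ 2) / 4)) +
          8 * t' * R ^ 2 * L * (3 * (1 / wd + Real.pi * D) + Real.pi))) * η := by
  unfold Tot Bc
  ring

/-- **the parameters** -/
theorem paramsZ : ParamsZ := by
  intro D C0 cg κ wd δ hD hC hcg hκ hwd hδ
  have hpi := Real.pi_pos
  have hδ9 : 0 < δ / 9 := by positivity
  obtain ⟨R, hR, h1⟩ := par_big2 (c := C0 / cg) (by positivity) hδ9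
  obtain ⟨L, hL, h2⟩ := par_big (c := Sc D C0 R) (Sc_nonneg hD hC) hδ9
  obtain ⟨t', ht', h3⟩ := par_big (c := 1 / (cg * κ ^ 2) * (4 / 3) * (C0 / 2)) (by positivity) hδ9
  obtain ⟨d0, hd0, _, h4⟩ := par_small
    (c := 6 + 1 / (cg * κ ^ 2) * (4 / 3) * (24 * t' * R ^ 2 * L)) (by positivity) hδ9
  obtain ⟨X, hX, h5⟩ := par_big
    (c := (6 + 1 / (cg * κ ^ 2) * (4 / 3) * (24 * t' * R ^ 2 * L)) * (2 * Real.pi * D))
    (by positivity) hδ9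
  obtain ⟨Q, hQ, h6⟩ := par_big2
    (c := 1 / (cg * κ ^ 2) * (4 / 3) * (8 * t' * R ^ 2 * L * C0 / cg)) (by positivity) hδ9
  obtain ⟨L', hL', h7⟩ := par_big (c := Sc D C0 (R + Q)) (Sc_nonneg hD hC) hδ9
  obtain ⟨t, ht, _, h8⟩ := par_small
    (c := 1 / (cg * κ ^ 2) * (4 / 3) * (4 * R ^ 2 * ((L' * (2 * L + 13) + 2) *
        (3 * Real.pi * D)))) (by positivity) hδ9
  refine ⟨R, L, t', X, d0, Q, L', t, hR, hL, ht', hX, hd0, hQ, hL', ht, fun CJ X' hCJ hX' => ?_⟩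
  obtain ⟨η, hη, hη1, h9⟩ := par_small
    (c := 6 * (1 / wd + Real.pi * D) + Real.pi + 1 / (cg * κ ^ 2) * (4 / 3) *
        (32 * ((1 + X ^ 2) / 4) + (16 + 2 / t) * (CJ * ((1 + X' ^ 2) / 4)) +
          8 * t' * R ^ 2 * L * (3 * (1 / wd + Real.pi * D) + Real.pi))) (by positivity) hδ9
  refine ⟨η, hη, hη1, ?_⟩
  rw [Tot_eq]
  linarith

end P365Z0.S351
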