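import Vale.Agent.P365.Z0.S351.Far
import Vale.Agent.P365.Z0.S351.Ex680
import Vale.Agent.P365.Z0.S351.Par159
import Vale.Agent.P365.Z0.NearZ622
import Vale.Agent.P365.Z0.H945.JLZ

/-!
# P365 Z0 (T1.5), block Z5: `P365Z.FarT`.
-/

set_option linter.all false

namespace P365Z

/-- **Z5** -/
theorem farT : P365Z.FarT :=
  P365Z0.S351.farT_of P365Z0.S351.nearZ P365Z0.H945.jlz P365Z0.S351.exZ P365Z0.S351.paramsZ

end P365Z
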