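import Vale.Agent.P365.Z0.S351.Tot

/-!
# P365 Z0 (T1.5), block Z5: label average, `FarT` from its pieces.
-/

set_option linter.all false

namespace P365Z0.S351

open P365L P365O P365T1 P365L.Stat P365L.Z622 Vale.Agent.P365.J376 Matrix Complex MeasureTheory Set
open Vale.Agent.P365.Z0

/-- the right-hand side is linear in the bounds -/
theorem Bds.rhs_lin (b : Bds) (cg r r' ρ L L' t t' : ℝ) :
    b.rhs cg r r' ρ L L' t t' =
      (2 + 1 / (cg * ρ ^ 2) * (4 / 3) * (4 * (2 * t' * r ^ 2 * L))) * b.bad +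
      (1 + 1 / (cg * ρ ^ 2) * (4 / 3) * (4 * (2 * t' * r ^ 2 * L))) * b.out +
      1 / (cg * ρ ^ 2) * (4 / 3) * (4 * (t * r ^ 2 * (L' * (2 * L + 13) + 2))) * b.tot +
      1 / L * b.c1 + 1 / L' * b.c2 +
      1 / (cg * ρ ^ 2) * (4 / 3) * 32 * (∑ k, b.lo k) +
      1 / (cg * ρ ^ 2) * (4 / 3) * (16 + 2 / t) * (∑ k, b.jl k) +
      (1 / (cg * ρ ^ 2) * (4 / 3) * (1 / (2 * t') +
        4 * (2 * t' * r ^ 2 * (L * (1 / (cg * (r' - r) ^ 2))))) + 1 / (cg * r ^ 2)) *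
        (∑ k, b.en k) := by
  unfold Bds.rhs
  simp only [Fin.sum_univ_four]
  ring

section lab

variable {N : ℕ} [NeZero N] {Λ : Type} [Fintype Λ]

/-- the world at the labels `l` -/
def wl (ν : Λ → Measure ℝ) (E : ℝ) (e : (Tor N → Λ) → Tor N → ℝ)
    (T : (Tor N → Λ) → Finset (Tor N)) (l : Tor N → Λ) : TW (Tor N) :=
  ⟨AT N, e l, E, fun y => ν (l y), T l⟩

theorem card_pairs {q C0 : ℝ} {p : Λ → ℝ} {T : (Tor N → Λ) → Finset (Tor N)}
    (hpair : ∀ r : ℝ, 0 ≤ r → ∑ l : Tor N → Λ, (∏ x, p (l x)) *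
      (((T l ×ˢ T l).filter fun u => (nrm (u.1 - u.2) : ℝ) ≤ r ∧ u.1 ≠ u.2).card : ℝ) ≤
        C0 * (q * (N : ℝ) ^ 2) * (1 + q * r ^ 2))
    (hcard : nT p T = q * (N : ℝ) ^ 2) {ρ : ℝ} (hρ : 0 ≤ ρ) :
    ∑ l : Tor N → Λ, (∏ x, p (l x)) * ∑ x ∈ T l, ((Bl dN x ρ ∩ T l).card : ℝ) ≤
      (1 + C0 * (1 + q * ρ ^ 2)) * nT p T := by
  classical
  have h1 : ∀ l : Tor N → Λ, ∑ x ∈ T l, ((Bl dN x ρ ∩ T l).card : ℝ) =
      ((T l).card : ℝ) +
      (((T l ×ˢ T l).filter fun u => (nrm (u.1 - u.2) : ℝ) ≤ ρ ∧ u.1 ≠ u.2).card : ℝ) := by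
    intro l
    have h2 : ∀ x ∈ T l, ((Bl dN x ρ ∩ T l).card : ℝ) = 1 +
        (((T l).filter fun y => (nrm (x - y) : ℝ) ≤ ρ ∧ x ≠ y).card : ℝ) := by
      intro x hx
      have h3 : Bl dN x ρ ∩ T l = insert x ((T l).filter fun y =>
          (nrm (x - y) : ℝ) ≤ ρ ∧ x ≠ y) := by
        ext y
        rw [Finset.mem_inter, mem_Bl, Finset.mem_insert, Finset.mem_filter, dN, nrm_sub_comm y x]
        constructor
        · rintro ⟨h4, h5⟩
          by_cases h6 : y = x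
          · exact Or.inl h6
          · exact Or.inr ⟨h5, h4, fun h => h6 h.symm⟩
        · rintro (rfl | ⟨h4, h5, h6⟩)
          · refine ⟨?_, hx⟩
            rw [sub_self, nrm_zero, Nat.cast_zero]
            exact hρ
          · exact ⟨h5, h4⟩
      rw [h3, Finset.card_insert_of_notMem]
      · push_cast
        ring
      · rw [Finset.mem_filter]
        rintro ⟨_, _, h⟩
        exact h rfl
    rw [Finset.sum_congr rfl h2, Finset.sum_add_distrib, Finset.sum_const, nsmul_eq_mul, mul_one]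
    congr 1
    rw [← Nat.cast_sum]
    congr 1
    rw [Finset.card_filter, Finset.sum_product]
    refine Finset.sum_congr rfl fun x _ => ?_
    rw [Finset.card_filter]
  simp only [h1, mul_add, Finset.sum_add_distrib]
  have h2 := hpair ρ hρ
  have h3 : ∑ l : Tor N → Λ, (∏ x, p (l x)) * ((T l).card : ℝ) = nT p T := rfl
  rw [h3]
  rw [← hcard] at h2
  linarith

/-- averages of the linear bound -/
theorem avg_lin {L : Type*} [Fintype L] (P : L → ℝ) {c1 c2 c3 c4 c5 c6 c7 c8 : ℝ}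
    (b1 b2 b3 b4 b5 b6 b7 b8 : L → ℝ) :
    ∑ l, P l * (c1 * b1 l + c2 * b2 l + c3 * b3 l + c4 * b4 l + c5 * b5 l + c6 * b6 l +
      c7 * b7 l + c8 * b8 l) =
    c1 * ∑ l, P l * b1 l + c2 * ∑ l, P l * b2 l + c3 * ∑ l, P l * b3 l +
      c4 * ∑ l, P l * b4 l + c5 * ∑ l, P l * b5 l + c6 * ∑ l, P l * b6 l +
      c7 * ∑ l, P l * b7 l + c8 * ∑ l, P l * b8 l := by
  simp only [Finset.mul_sum, ← Finset.sum_add_distrib]
  exact Finset.sum_congr rfl fun l _ => by ring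



/-- `2 * ` the loss integral at fixed labels -/
noncomputable def lzl (ν : Λ → Measure ℝ) (E : ℝ) (e : (Tor N → Λ) → Tor N → ℝ)
    (T : (Tor N → Λ) → Finset (Tor N)) (k : Fin 4) (l : Tor N → Λ) : ℝ :=
  ∫ v, ∑ x ∈ (wl ν E e T l).T, (wl ν E e T l).e x *
    P365Z.Lz (wl ν E e T l).A ((wl ν E e T l).W v) (phi N k) x ∂(Measure.pi (wl ν E e T l).ν)

/-- bad bound at fixed labels -/
noncomputable def badl (ν : Λ → Measure ℝ) (E : ℝ) (e : (Tor N → Λ) → Tor N → ℝ)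
    (T : (Tor N → Λ) → Finset (Tor N)) (D X d0 a a' η : ℝ) (l : Tor N → Λ) : ℝ :=
  ∑ x ∈ (wl ν E e T l).T, (wl ν E e T l).e x * (d0 + 2 * Real.pi * D / X + η / (a' - a) ^ 2 +
        Real.pi * D * (Measure.pi (wl ν E e T l).ν
          (P365Z.Off (wl ν E e T l).A (wl ν E e T l).E (wl ν E e T l).e a η x)).toReal)

noncomputable def outl (ν : Λ → Measure ℝ) (E : ℝ) (e : (Tor N → Λ) → Tor N → ℝ)
    (T : (Tor N → Λ) → Finset (Tor N)) (Dn : Λ → ℝ) (l : Tor N → Λ) : ℝ :=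
  ∑ x ∈ (wl ν E e T l).Tᶜ, (wl ν E e T l).e x * (Real.pi * Dn (l x))

noncomputable def totl (ν : Λ → Measure ℝ) (E : ℝ) (e : (Tor N → Λ) → Tor N → ℝ)
    (T : (Tor N → Λ) → Finset (Tor N)) (D : ℝ) (l : Tor N → Λ) : ℝ :=
  ∑ x ∈ (wl ν E e T l).T, (wl ν E e T l).e x * (Real.pi * D)

noncomputable def crl (ν : Λ → Measure ℝ) (E : ℝ) (e : (Tor N → Λ) → Tor N → ℝ)
    (T : (Tor N → Λ) → Finset (Tor N)) (D ρ : ℝ) (l : Tor N → Λ) : ℝ :=
  ∑ x ∈ (wl ν E e T l).T, (wl ν E e T l).e x * (Real.pi * D *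
        (∑ y ∈ Bl dN x ρ ∩ (wl ν E e T l).T, (wl ν E e T l).e y * (Real.pi * D) + 1))

noncomputable def enl (ν : Λ → Measure ℝ) (E : ℝ) (e : (Tor N → Λ) → Tor N → ℝ)
    (T : (Tor N → Λ) → Finset (Tor N)) (k : Fin 4) (l : Tor N → Λ) : ℝ :=
  ∫ v, En (wl ν E e T l).A ((wl ν E e T l).W v) (phi N k) ∂(Measure.pi (wl ν E e T l).ν)

/-- the bounds at fixed labels -/
noncomputable def bl (ν : Λ → Measure ℝ) (E : ℝ) (e : (Tor N → Λ) → Tor N → ℝ)
    (T : (Tor N → Λ) → Finset (Tor N)) (Dn : Λ → ℝ) (D X d0 a a' η CJ X' r r' : ℝ)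
    (l : Tor N → Λ) : Bds :=
  { bad := badl ν E e T D X d0 a a' η l
    out := outl ν E e T Dn l
    tot := totl ν E e T D l
    c1 := crl ν E e T D (2 * r) l
    c2 := crl ν E e T D (2 * r') l
    lo := fun k => (1 + X ^ 2) / 4 * lzl ν E e T k l
    jl := fun k => CJ * ((1 + X' ^ 2) / 4 * lzl ν E e T k l)
    en := fun k => enl ν E e T k l }

theorem Lo_eq {ι : Type} [Fintype ι] [DecidableEq ι] (w : TW ι) (φ : ι → ℝ) (X d0 a' : ℝ) :
    w.Lo φ X d0 a' = ∫ v, los w.A (w.W v) φ (w.Gd X d0 a' v) ∂(Measure.pi w.ν) := by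
  unfold TW.Lo los
  congr 1
  funext v
  refine Finset.sum_congr rfl fun z _ => ?_
  rw [w.ee_W]

variable {p : Λ → ℝ} {ν : Λ → Measure ℝ} {E : ℝ} {e : (Tor N → Λ) → Tor N → ℝ}
  {T : (Tor N → Λ) → Finset (Tor N)} {Dt c0 a a' dl C0 ε q η : ℝ} {Dn : Λ → ℝ}

theorem wl_ok (hW : P365Z.TW N p ν E e T Dt c0 a a' dl C0 ε q η Dn) (l : Tor N → Λ) :
    (wl ν E e T l).Ok Dt c0 dl a' :=
  ⟨AT_symm N, hW.e_pos l, fun x => hW.prob _, hW.dens l, hW.core l⟩

theorem hold_bl (hEx : ExZ)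
    (hW : P365Z.TW N p ν E e T Dt c0 a a' dl C0 ε q η Dn) (hDt : 0 < Dt) (haa : a < a')
    (hη : 0 < η) {X d0 CJ X' d' r r' L L' : ℝ} (hX : 0 < X) (hd0 : 0 < d0) (hCJ : 0 < CJ)
    (hX' : 0 < X') (hd' : 0 < d')
    (hJ : ∀ (l : Tor N → Λ) (k : Fin 4), IB (Measure.pi (wl ν E e T l).ν)
      (fun v => JLf (wl ν E e T l).A ((wl ν E e T l).W v) (phi N k) dN r r'
        ((wl ν E e T l).Gd X d0 a' v) ((wl ν E e T l).Oc dN X d0 a' r r' L L' v))
      (CJ * (wl ν E e T l).Lo (phi N k) X' d' a')) (l : Tor N → Λ) :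
    (bl ν E e T Dn Dt X d0 a a' η CJ X' r r' l).Hold (wl ν E e T l) (phi N) dN X d0 a' r r'
      L L' where
  bad := hEx.bad _ _ Dt c0 dl a' hDt (wl_ok hW l) X d0 a η hX hd0 haa hη.le
  out := hEx.out _ _ Dt c0 dl a' hDt (wl_ok hW l) (fun x => Dn (l x)) fun x _ =>
    ⟨hW.Dn_nonneg _, hW.densN _⟩
  tot := hEx.tot _ _ Dt c0 dl a' hDt (wl_ok hW l)
  c1 := hEx.crowd _ _ Dt c0 dl a' hDt (wl_ok hW l) dN (2 * r)
  c2 := hEx.crowd _ _ Dt c0 dl a' hDt (wl_ok hW l) dN (2 * r')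
  lo := fun k => hEx.los _ _ Dt c0 dl a' hDt (wl_ok hW l) (phi N k) X d0 hX hd0
  jl := fun k => (hJ l k).mono (mul_le_mul_of_nonneg_left (by
    rw [Lo_eq]
    exact (hEx.los _ _ Dt c0 dl a' hDt (wl_ok hW l) (phi N k) X' d' hX' hd').le) hCJ.le)
  en := fun k => ⟨hEx.en _ _ Dt c0 dl a' hDt (wl_ok hW l) (phi N k), le_rfl⟩

theorem P_nonneg (hW : P365Z.TW N p ν E e T Dt c0 a a' dl C0 ε q η Dn) (l : Tor N → Λ) :
    0 ≤ ∏ x, p (l x) := Finset.prod_nonneg fun x _ => hW.p_nonneg _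

theorem P_sum (hW : P365Z.TW N p ν E e T Dt c0 a a' dl C0 ε q η Dn) :
    ∑ l : Tor N → Λ, ∏ x, p (l x) = 1 := by
  classical
  have := (Finset.prod_univ_sum (fun _ : Tor N => (Finset.univ : Finset Λ))
      (fun _ k => p k)).symm
  rw [Fintype.piFinset_univ] at this
  rw [this]
  simp only [hW.p_sum, Finset.prod_const_one]

theorem nT_nonneg (hW : P365Z.TW N p ν E e T Dt c0 a a' dl C0 ε q η Dn) : 0 ≤ nT p T :=
  Finset.sum_nonneg fun l _ => mul_nonneg (P_nonneg hW l) (Nat.cast_nonneg _)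

/-- averages of a bound linear in the number of traps -/
theorem avg_card (hW : P365Z.TW N p ν E e T Dt c0 a a' dl C0 ε q η Dn)
    {F : (Tor N → Λ) → ℝ} {c : ℝ} (h : ∀ l, F l ≤ c * ((T l).card : ℝ)) :
    ∑ l, (∏ x, p (l x)) * F l ≤ c * nT p T := by
  refine (Finset.sum_le_sum fun l _ => mul_le_mul_of_nonneg_left (h l)
    (P_nonneg hW l)).trans (le_of_eq ?_)
  unfold nT
  rw [Finset.mul_sum]
  exact Finset.sum_congr rfl fun l _ => by ring

theorem B1 (hW : P365Z.TW N p ν E e T Dt c0 a a' dl C0 ε q η Dn) (hDt : 0 < Dt)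
    (haa : a < a') (hη : 0 < η) {X d0 : ℝ} (hX : 0 < X) (hd0 : 0 < d0) :
    ∑ l, (∏ x, p (l x)) * badl ν E e T Dt X d0 a a' η l ≤
      ε * Bc Dt X d0 ((a' - a) ^ 2) η * nT p T := by
  have hpi := Real.pi_pos
  have hε := hW.eps_pos
  refine avg_card hW fun l => ?_
  have h2 : ∀ x ∈ (wl ν E e T l).T, (wl ν E e T l).e x * (d0 + 2 * Real.pi * Dt / X +
      η / (a' - a) ^ 2 + Real.pi * Dt * (Measure.pi (wl ν E e T l).ν
        (P365Z.Off (wl ν E e T l).A (wl ν E e T l).E (wl ν E e T l).e a η x)).toReal) ≤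
      ε * Bc Dt X d0 ((a' - a) ^ 2) η := by
    intro x hx
    have h3 : (Measure.pi (wl ν E e T l).ν
        (P365Z.Off (wl ν E e T l).A (wl ν E e T l).E (wl ν E e T l).e a η x)).toReal ≤ η :=
      ENNReal.toReal_le_of_le_ofReal hη.le (hW.loc l x hx)
    have h0 : 0 ≤ (Measure.pi (wl ν E e T l).ν
        (P365Z.Off (wl ν E e T l).A (wl ν E e T l).E (wl ν E e T l).e a η x)).toReal :=
      ENNReal.toReal_nonneg
    generalize (Measure.pi (wl ν E e T l).ν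
        (P365Z.Off (wl ν E e T l).A (wl ν E e T l).E (wl ν E e T l).e a η x)).toReal = y
      at h3 h0 ⊢
    have h4 : d0 + 2 * Real.pi * Dt / X + η / (a' - a) ^ 2 + Real.pi * Dt * y ≤
        d0 + 2 * Real.pi * Dt / X + η / (a' - a) ^ 2 + Real.pi * Dt * η := by
      have := mul_le_mul_of_nonneg_left h3 (show 0 ≤ Real.pi * Dt by positivity)
      linarith
    have h5 : 0 ≤ d0 + 2 * Real.pi * Dt / X + η / (a' - a) ^ 2 + Real.pi * Dt * y := by
      positivity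
    have h6 : (wl ν E e T l).e x ≤ 3 * ε := hW.e_hi l x hx
    refine (mul_le_mul h6 h4 h5 (by positivity)).trans (le_of_eq ?_)
    unfold Bc
    ring
  refine (Finset.sum_le_sum h2).trans (le_of_eq ?_)
  rw [Finset.sum_const, nsmul_eq_mul, mul_comm]
  rfl

theorem B2 (hW : P365Z.TW N p ν E e T Dt c0 a a' dl C0 ε q η Dn) (hη : 0 < η) :
    ∑ l, (∏ x, p (l x)) * outl ν E e T Dn l ≤ ε * (Real.pi * η) * nT p T := by
  have hpi := Real.pi_pos
  have hε := hW.eps_pos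
  have hq := hW.q_pos
  have h1 : ∀ l, outl ν E e T Dn l ≤ ε * (Real.pi * η) * nT p T := by
    intro l
    have h2 : ∀ x ∈ (wl ν E e T l).Tᶜ, (wl ν E e T l).e x * (Real.pi * Dn (l x)) ≤
        Real.pi * (η * (q * ε)) := by
      intro x hx
      have h3 : (wl ν E e T l).e x * (1 + Dn (l x)) ≤ η * (q * ε) :=
        hW.bulk l x (Finset.mem_compl.1 hx)
      have h5 : 0 < (wl ν E e T l).e x := hW.e_pos l x
      generalize (wl ν E e T l).e x = y at h3 h5 ⊢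
      generalize Dn (l x) = z at h3 ⊢
      have h6 : y * z ≤ η * (q * ε) := by
        have : y * (1 + z) = y + y * z := by ring
        linarith
      have := mul_le_mul_of_nonneg_left h6 hpi.le
      linarith
    refine (Finset.sum_le_sum h2).trans ?_
    refine (Finset.sum_le_sum_of_subset_of_nonneg (Finset.subset_univ _) fun x _ _ =>
      by positivity).trans (le_of_eq ?_)
    rw [Finset.sum_const, Finset.card_univ, nsmul_eq_mul, card_Tor, hW.card]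
    ring
  calc ∑ l, (∏ x, p (l x)) * outl ν E e T Dn l ≤
        ∑ l : Tor N → Λ, (∏ x, p (l x)) * (ε * (Real.pi * η) * nT p T) :=
        Finset.sum_le_sum fun l _ => mul_le_mul_of_nonneg_left (h1 l) (P_nonneg hW l)
    _ = _ := by rw [← Finset.sum_mul, P_sum hW, one_mul]

theorem B3 (hW : P365Z.TW N p ν E e T Dt c0 a a' dl C0 ε q η Dn) (hDt : 0 < Dt) :
    ∑ l, (∏ x, p (l x)) * totl ν E e T Dt l ≤ ε * (3 * Real.pi * Dt) * nT p T := by
  have hpi := Real.pi_pos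
  refine avg_card hW fun l => ?_
  have h2 : ∀ x ∈ (wl ν E e T l).T, (wl ν E e T l).e x * (Real.pi * Dt) ≤
      ε * (3 * Real.pi * Dt) := by
    intro x hx
    have h6 : (wl ν E e T l).e x ≤ 3 * ε := hW.e_hi l x hx
    refine (mul_le_mul_of_nonneg_right h6 (by positivity)).trans (le_of_eq ?_)
    ring
  refine (Finset.sum_le_sum h2).trans (le_of_eq ?_)
  rw [Finset.sum_const, nsmul_eq_mul, mul_comm]
  rfl

theorem Bcr1 (hW : P365Z.TW N p ν E e T Dt c0 a a' dl C0 ε q η Dn) (hDt : 0 < Dt) (ρ : ℝ)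
    (l : Tor N → Λ) :
    crl ν E e T Dt ρ l ≤ 3 * ε * (Real.pi * Dt) * (3 * ε * (Real.pi * Dt) *
          ∑ x ∈ T l, ((Bl dN x ρ ∩ T l).card : ℝ) + ((T l).card : ℝ)) := by
  have hpi := Real.pi_pos
  have hε := hW.eps_pos
  have h2 : ∀ x ∈ (wl ν E e T l).T, (wl ν E e T l).e x * (Real.pi * Dt *
    (∑ y ∈ Bl dN x ρ ∩ (wl ν E e T l).T, (wl ν E e T l).e y * (Real.pi * Dt) + 1)) ≤
      3 * ε * (Real.pi * Dt) * (3 * ε * (Real.pi * Dt) *
        ((Bl dN x ρ ∩ T l).card : ℝ) + 1) := by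
    intro x hx
    have h3 : ∑ y ∈ Bl dN x ρ ∩ (wl ν E e T l).T, (wl ν E e T l).e y * (Real.pi * Dt) ≤
        3 * ε * (Real.pi * Dt) * ((Bl dN x ρ ∩ T l).card : ℝ) := by
      refine (Finset.sum_le_sum fun y hy => mul_le_mul_of_nonneg_right
        (show (wl ν E e T l).e y ≤ 3 * ε from hW.e_hi l y (Finset.mem_inter.1 hy).2)
          (by positivity)).trans (le_of_eq ?_)
      rw [Finset.sum_const, nsmul_eq_mul, mul_comm]
    have h4 : 0 ≤ ∑ y ∈ Bl dN x ρ ∩ (wl ν E e T l).T, (wl ν E e T l).e y * (Real.pi * Dt) :=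
      Finset.sum_nonneg fun y hy => mul_nonneg (hW.e_pos l y).le (by positivity)
    have h6 : (wl ν E e T l).e x ≤ 3 * ε := hW.e_hi l x hx
    generalize ∑ y ∈ Bl dN x ρ ∩ (wl ν E e T l).T, (wl ν E e T l).e y * (Real.pi * Dt) = u
      at h3 h4 ⊢
    generalize ((Bl dN x ρ ∩ T l).card : ℝ) = m at h3 ⊢
    have h7 : Real.pi * Dt * (u + 1) ≤ Real.pi * Dt * (3 * ε * (Real.pi * Dt) * m + 1) :=
      mul_le_mul_of_nonneg_left (by linarith) (by positivity)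
    have h8 : 0 ≤ Real.pi * Dt * (u + 1) := by positivity
    refine (mul_le_mul h6 h7 h8 (by positivity)).trans (le_of_eq ?_)
    ring
  refine (Finset.sum_le_sum h2).trans (le_of_eq ?_)
  rw [← Finset.mul_sum, Finset.sum_add_distrib, ← Finset.mul_sum, Finset.sum_const,
    nsmul_eq_mul, mul_one]
  rfl

/-- numbers of the crowding term -/
theorem crowd_num {D C0 ε n R1 : ℝ} (hD : 0 < D) (hC0 : 0 < C0) (hε : 0 < ε) (hε1 : ε ≤ 1)
    (hn : 0 ≤ n) :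
    3 * ε * (Real.pi * D) * (3 * ε * (Real.pi * D) *
          ((1 + C0 * (1 + 4 * R1 ^ 2 / ε)) * n) + n) ≤ ε * Sc D C0 R1 * n := by
  have hpi := Real.pi_pos
  have h1 : 3 * ε * (Real.pi * D) * (3 * ε * (Real.pi * D) *
          ((1 + C0 * (1 + 4 * R1 ^ 2 / ε)) * n) + n) =
      ε * (3 * Real.pi * D * (3 * Real.pi * D * (ε * (1 + C0) + 4 * C0 * R1 ^ 2) + 1)) * n := by
    field_simp
    ring
  rw [h1]
  unfold Sc
  have h2 : ε * (1 + C0) + 4 * C0 * R1 ^ 2 ≤ 1 + C0 + 4 * C0 * R1 ^ 2 := by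
    nlinarith [mul_le_mul_of_nonneg_right hε1 (show 0 ≤ 1 + C0 by positivity)]
  gcongr

theorem Bcr (hW : P365Z.TW N p ν E e T Dt c0 a a' dl C0 ε q η Dn) (hDt : 0 < Dt)
    (hC0 : 0 < C0) (hη1 : η ≤ 1) {R1 : ℝ} (hR1 : 0 < R1) :
    ∑ l, (∏ x, p (l x)) * crl ν E e T Dt (2 * (R1 / Real.sqrt (q * ε))) l ≤
      ε * Sc Dt C0 R1 * nT p T := by
  have hpi := Real.pi_pos
  have hε := hW.eps_pos
  have hq := hW.q_pos
  have hqe : 0 < q * ε := mul_pos hq hε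
  have hs0 : 0 < Real.sqrt (q * ε) := Real.sqrt_pos.2 hqe
  have h2 := card_pairs (T := T) (p := p) (q := q) (C0 := C0) hW.pair hW.card
      (ρ := 2 * (R1 / Real.sqrt (q * ε))) (by positivity)
  have h3 : q * (2 * (R1 / Real.sqrt (q * ε))) ^ 2 = 4 * R1 ^ 2 / ε := by
    rw [mul_pow, div_pow, Real.sq_sqrt hqe.le]
    field_simp
    norm_num
  rw [h3] at h2
  refine le_trans ?_ (crowd_num (R1 := R1) hDt hC0 hε (hW.eps_le.trans hη1) (nT_nonneg hW))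
  calc ∑ l, (∏ x, p (l x)) * crl ν E e T Dt (2 * (R1 / Real.sqrt (q * ε))) l
      ≤ ∑ l : Tor N → Λ, (∏ x, p (l x)) * (3 * ε * (Real.pi * Dt) * (3 * ε * (Real.pi * Dt) *
        ∑ x ∈ T l, ((Bl dN x (2 * (R1 / Real.sqrt (q * ε))) ∩ T l).card : ℝ) +
          ((T l).card : ℝ))) :=
        Finset.sum_le_sum fun l _ => mul_le_mul_of_nonneg_left (Bcr1 hW hDt _ l)
          (P_nonneg hW l)
    _ = 3 * ε * (Real.pi * Dt) * (3 * ε * (Real.pi * Dt) *
        (∑ l : Tor N → Λ, (∏ x, p (l x)) *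
          ∑ x ∈ T l, ((Bl dN x (2 * (R1 / Real.sqrt (q * ε))) ∩ T l).card : ℝ)) + nT p T) := by
        unfold nT
        rw [Finset.mul_sum, ← Finset.sum_add_distrib, Finset.mul_sum]
        exact Finset.sum_congr rfl fun l _ => by ring
    _ ≤ _ := by
        refine mul_le_mul_of_nonneg_left (add_le_add ?_ le_rfl) (by positivity)
        exact mul_le_mul_of_nonneg_left h2 (by positivity)

theorem Blz (hEx : ExZ) (hW : P365Z.TW N p ν E e T Dt c0 a a' dl C0 ε q η Dn) (hDt : 0 < Dt)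
    (hLo : AvG p ν E e (fun l W => ∑ x ∈ T l, e l x * ∑ k, P365Z.Lz (AT N) W (phi N k) x) ≤
        η * (N : ℝ) ^ 2) :
    ∑ l : Tor N → Λ, (∏ x, p (l x)) * ∑ k, lzl ν E e T k l ≤ η * (nT p T / q) := by
  have hq := hW.q_pos
  have hNn : (N : ℝ) ^ 2 = nT p T / q := by rw [hW.card]; field_simp
  rw [← hNn]
  refine le_trans (le_of_eq ?_) hLo
  unfold AvG
  refine Finset.sum_congr rfl fun l _ => ?_
  congr 1
  unfold Ex lzl
  have hi : ∀ k x, Integrable (fun v => P365Z.Lz (wl ν E e T l).A ((wl ν E e T l).W v)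
      (phi N k) x) (Measure.pi (wl ν E e T l).ν) := fun k x =>
    hEx.lz _ _ Dt c0 dl a' hDt (wl_ok hW l) (phi N k) x
  rw [← integral_finset_sum _ fun k _ => integrable_finset_sum _ fun x _ =>
    (hi k x).const_mul _]
  refine integral_congr_ae (Filter.Eventually.of_forall fun v => ?_)
  show ∑ k, ∑ x ∈ (wl ν E e T l).T, (wl ν E e T l).e x *
      P365Z.Lz (wl ν E e T l).A ((wl ν E e T l).W v) (phi N k) x =
    ∑ x ∈ T l, e l x * ∑ k, P365Z.Lz (AT N) (WV E (e l) v) (phi N k) x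
  rw [Finset.sum_comm]
  refine Finset.sum_congr rfl fun x _ => ?_
  rw [Finset.mul_sum]
  rfl

theorem Ben (hEx : ExZ) (hW : P365Z.TW N p ν E e T Dt c0 a a' dl C0 ε q η Dn) (hDt : 0 < Dt)
    (hEn : PhiG (AT N) p ν E (phi N) e ≤ C0 * (N : ℝ) ^ 2) :
    ∑ l : Tor N → Λ, (∏ x, p (l x)) * ∑ k, enl ν E e T k l ≤ C0 * (nT p T / q) := by
  have hq := hW.q_pos
  have hNn : (N : ℝ) ^ 2 = nT p T / q := by rw [hW.card]; field_simp
  rw [← hNn]
  refine le_trans (le_of_eq ?_) hEn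
  unfold PhiG AvG
  refine Finset.sum_congr rfl fun l _ => ?_
  congr 1
  unfold Ex enl
  rw [← integral_finset_sum _ fun k _ => hEx.en _ _ Dt c0 dl a' hDt (wl_ok hW l) (phi N k)]
  rfl

/-- the inequality at fixed labels -/
theorem fixl (hNear : NearZ) (hW : P365Z.TW N p ν E e T Dt c0 a a' dl C0 ε q η Dn)
    {cg : ℝ} (hcg : 0 < cg)
    (hφ2 : ∀ x y : Tor N, cg * dN x y ^ 2 ≤ ∑ k, (phi N k x - phi N k y) ^ 2)
    {X d0 r r' κ L L' t t' : ℝ}
    (hr : 0 < r) (hrr : r < r') (hκ : 0 < κ) (hL : 0 < L) (hL' : 0 < L') (ht : 0 < t)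
    (ht' : 0 < t') {l : Tor N → Λ} {b : Bds}
    (hb : b.Hold (wl ν E e T l) (phi N) dN X d0 a' r r' L L') :
    ∫ v, (∑ x ∈ T l, ∑ y ∈ (T l).filter
        (fun y => κ / Real.sqrt (q * ε) < (nrm (x - y) : ℝ)),
          e l y * KK (AT N) (WV E (e l) v) x y) ∂(Measure.pi (wl ν E e T l).ν) ≤
      1 / ε * b.rhs cg r r' (κ / Real.sqrt (q * ε)) L L' t t' := by
  have hε := hW.eps_pos
  have hqe : 0 < q * ε := mul_pos hW.q_pos hε
  have hs0 : 0 < Real.sqrt (q * ε) := Real.sqrt_pos.2 hqe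
  have hok := wl_ok hW l
  refine fixed hNear hok dN_self dN_comm dN_tri (fun k => phi_lip k) hcg hφ2 hr hrr
    (by positivity) hL hL' ht ht' hb (by positivity) (fun v => ?_) fun v => ?_
  · exact Finset.sum_nonneg fun x _ => Finset.sum_nonneg fun y _ =>
      mul_nonneg (hW.e_pos l y).le (KK_nonneg _ _)
  · have hn := hok.W_neg v
    unfold farT
    rw [Finset.mul_sum]
    refine Finset.sum_le_sum fun x hx => ?_
    rw [Finset.mul_sum]
    have hsub : (T l).filter (fun y => κ / Real.sqrt (q * ε) < (nrm (x - y) : ℝ)) ⊆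
        Finset.univ.filter (fun z => κ / Real.sqrt (q * ε) ≤ dN z x) := by
      intro y hy
      rw [Finset.mem_filter] at hy ⊢
      refine ⟨Finset.mem_univ _, ?_⟩
      rw [dN, nrm_sub_comm]
      exact hy.2.le
    refine le_trans (Finset.sum_le_sum fun y _ => ?_)
      (Finset.sum_le_sum_of_subset_of_nonneg hsub fun y _ _ => mul_nonneg (by positivity)
        (mul_nonneg (mul_nonneg (ee_nonneg hn y) (ee_nonneg hn x)) (KK_nonneg _ _)))
    rw [TW.ee_W, TW.ee_W]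
    have h1 : KK (AT N) (WV E (e l) v) x y = KK (wl ν E e T l).A ((wl ν E e T l).W v) y x :=
      KK_symm (AT_symm N) x y
    rw [h1]
    have h2 : ε ≤ (wl ν E e T l).e x := hW.e_lo l x hx
    have h3 : 0 ≤ (wl ν E e T l).e y * KK (wl ν E e T l).A ((wl ν E e T l).W v) y x :=
      mul_nonneg (hW.e_pos l y).le (KK_nonneg _ _)
    have h4 : 1 ≤ 1 / ε * (wl ν E e T l).e x := by
      rw [one_div, ← div_eq_inv_mul, le_div_iff₀ hε, one_mul]
      exact h2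
    calc (wl ν E e T l).e y * KK (wl ν E e T l).A ((wl ν E e T l).W v) y x ≤
          (wl ν E e T l).e y * KK (wl ν E e T l).A ((wl ν E e T l).W v) y x *
            (1 / ε * (wl ν E e T l).e x) := le_mul_of_one_le_right h3 h4
      _ = _ := by ring

/-- monotonicity of the final combination -/
theorem comb {ε c1 c2 c3 c4 c5 c6 c7 c8 x1 x2 x3 x4 x5 x6 x7 x8 y1 y2 y3 y4 y5 y6 y7 y8 : ℝ}
    (hε : 0 < ε) (h1 : 0 ≤ c1) (h2 : 0 ≤ c2) (h3 : 0 ≤ c3) (h4 : 0 ≤ c4) (h5 : 0 ≤ c5)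
    (h6 : 0 ≤ c6) (h7 : 0 ≤ c7) (h8 : 0 ≤ c8) (k1 : x1 ≤ y1) (k2 : x2 ≤ y2) (k3 : x3 ≤ y3)
    (k4 : x4 ≤ y4) (k5 : x5 ≤ y5) (k6 : x6 ≤ y6) (k7 : x7 ≤ y7) (k8 : x8 ≤ y8) :
    1 / ε * (c1 * x1 + c2 * x2 + c3 * x3 + c4 * x4 + c5 * x5 + c6 * x6 + c7 * x7 + c8 * x8) ≤
    1 / ε * (c1 * y1 + c2 * y2 + c3 * y3 + c4 * y4 + c5 * y5 + c6 * y6 + c7 * y7 + c8 * y8) := by
  refine mul_le_mul_of_nonneg_left ?_ (by positivity)
  have g1 := mul_le_mul_of_nonneg_left k1 h1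
  have g2 := mul_le_mul_of_nonneg_left k2 h2
  have g3 := mul_le_mul_of_nonneg_left k3 h3
  have g4 := mul_le_mul_of_nonneg_left k4 h4
  have g5 := mul_le_mul_of_nonneg_left k5 h5
  have g6 := mul_le_mul_of_nonneg_left k6 h6
  have g7 := mul_le_mul_of_nonneg_left k7 h7
  have g8 := mul_le_mul_of_nonneg_left k8 h8
  linarith

/-- the final identity of numbers -/
theorem final_num {D C0 cg κ wd R L t' X d0 Q L' t CJ X' η ε q n r2 ρ2 Q2 : ℝ} (hcg : 0 < cg)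
    (hκ : 0 < κ) (hR : 0 < R) (hL : 0 < L) (ht' : 0 < t') (hQ : 0 < Q) (hL' : 0 < L')
    (ht : 0 < t) (hε : 0 < ε) (hq : 0 < q) (h1 : r2 = R ^ 2 / (q * ε))
    (h2 : ρ2 = κ ^ 2 / (q * ε)) (h3 : Q2 = Q ^ 2 / (q * ε)) :
    1 / ε * ((2 + 1 / (cg * ρ2) * (4 / 3) * (4 * (2 * t' * r2 * L))) *
        (ε * Bc D X d0 wd η * n) +
      (1 + 1 / (cg * ρ2) * (4 / 3) * (4 * (2 * t' * r2 * L))) * (ε * (Real.pi * η) * n) +
      1 / (cg * ρ2) * (4 / 3) * (4 * (t * r2 * (L' * (2 * L + 13) + 2))) *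
        (ε * (3 * Real.pi * D) * n) +
      1 / L * (ε * Sc D C0 R * n) + 1 / L' * (ε * Sc D C0 (R + Q) * n) +
      1 / (cg * ρ2) * (4 / 3) * 32 * ((1 + X ^ 2) / 4 * (η * (n / q))) +
      1 / (cg * ρ2) * (4 / 3) * (16 + 2 / t) * (CJ * ((1 + X' ^ 2) / 4 * (η * (n / q)))) +
      (1 / (cg * ρ2) * (4 / 3) * (1 / (2 * t') +
        4 * (2 * t' * r2 * (L * (1 / (cg * Q2))))) + 1 / (cg * r2)) * (C0 * (n / q))) =
      Tot D C0 cg κ wd R L t' X d0 Q L' t CJ X' η * n := by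
  subst h1 h2 h3
  unfold Tot
  generalize Bc D X d0 wd η = B
  generalize Sc D C0 R = S1
  generalize Sc D C0 (R + Q) = S2
  field_simp
  ring

end lab

/-- **`FarT` from the pieces** -/
theorem farT_of (hNear : NearZ) (hJLZ : JLZ) (hEx : ExZ) (hPar : ParamsZ) : P365Z.FarT := by
  intro Dt c0 a a' dl C0 κ δ hDt hc0 ha haa hdl hC0 hκ hδ
  have hpi := Real.pi_pos
  have hcg : 0 < 4 / Real.pi ^ 2 := by positivity
  have hwd : 0 < (a' - a) ^ 2 := pow_pos (by linarith) 2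
  obtain ⟨R, L, t', X, d0, Q, L', t, hR, hL, ht', hX, hd0, hQ, hL', ht, hpar⟩ :=
    hPar Dt C0 (4 / Real.pi ^ 2) κ ((a' - a) ^ 2) δ hDt hC0 hcg hκ hwd hδ
  obtain ⟨CJ, X', d', hCJ, hX', hd', hJ⟩ := hJLZ Dt c0 dl X d0 L' hDt hc0 hdl hX hd0 hL'
  obtain ⟨η, hη, hη1, hTot⟩ := hpar CJ X' hCJ hX'
  refine ⟨η, hη, hη1, ?_⟩
  intro N _ Λ _ p ν E e T ε q Dn hW hEn hLo
  have hε := hW.eps_pos
  have hq := hW.q_pos
  have hqe : 0 < q * ε := mul_pos hq hε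
  have hs0 : 0 < Real.sqrt (q * ε) := Real.sqrt_pos.2 hqe
  have hss : Real.sqrt (q * ε) ^ 2 = q * ε := Real.sq_sqrt hqe.le
  have hr0 : 0 < R / Real.sqrt (q * ε) := by positivity
  have hrr : R / Real.sqrt (q * ε) < (R + Q) / Real.sqrt (q * ε) :=
    div_lt_div_of_pos_right (by linarith) hs0
  have hφ2 : ∀ x y : Tor N, 4 / Real.pi ^ 2 * dN x y ^ 2 ≤
      ∑ k, (phi N k x - phi N k y) ^ 2 := fun x y => by
    have := dsq_ge x y
    unfold dsq at this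
    exact this
  have hhold := fun l => hold_bl (L := L) (L' := L') (r := R / Real.sqrt (q * ε))
    (r' := (R + Q) / Real.sqrt (q * ε)) hEx hW hDt haa hη hX hd0
    hCJ hX' hd' (fun l k => hJ (Tor N) (wl ν E e T l) (phi N k) dN a' _ _ L (wl_ok hW l)
      dN_self dN_comm dN_tri hr0.le hrr.le) l
  have hfin : AvG p ν E e (fun l W => ∑ x ∈ T l, ∑ y ∈ (T l).filter
        (fun y => κ / Real.sqrt (q * ε) < (nrm (x - y) : ℝ)),
          e l y * KK (AT N) W x y) ≤ 1 / ε * ∑ l : Tor N → Λ, (∏ x, p (l x)) *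
        (bl ν E e T Dn Dt X d0 a a' η CJ X' (R / Real.sqrt (q * ε))
          ((R + Q) / Real.sqrt (q * ε)) l).rhs (4 / Real.pi ^ 2) (R / Real.sqrt (q * ε))
          ((R + Q) / Real.sqrt (q * ε)) (κ / Real.sqrt (q * ε)) L L' t t' := by
    unfold AvG
    rw [Finset.mul_sum]
    refine Finset.sum_le_sum fun l _ => ?_
    have := mul_le_mul_of_nonneg_left (fixl hNear hW hcg hφ2 hr0 hrr hκ hL hL' ht ht'
      (hhold l)) (P_nonneg hW l)
    refine this.trans (le_of_eq (by ring))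
  refine hfin.trans ?_
  simp only [Bds.rhs_lin]
  rw [avg_lin]
  have hlz := Blz hEx hW hDt hLo
  have B6 : ∑ l : Tor N → Λ, (∏ x, p (l x)) * ∑ k, (bl ν E e T Dn Dt X d0 a a' η CJ X'
      (R / Real.sqrt (q * ε)) ((R + Q) / Real.sqrt (q * ε)) l).lo k ≤
      (1 + X ^ 2) / 4 * (η * (nT p T / q)) := by
    refine le_trans (le_of_eq ?_) (mul_le_mul_of_nonneg_left hlz
      (show 0 ≤ (1 + X ^ 2) / 4 by positivity))
    rw [Finset.mul_sum]
    refine Finset.sum_congr rfl fun l _ => ?_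
    show (∏ x, p (l x)) * ∑ k, (1 + X ^ 2) / 4 * lzl ν E e T k l = _
    rw [← Finset.mul_sum]
    ring
  have B7 : ∑ l : Tor N → Λ, (∏ x, p (l x)) * ∑ k, (bl ν E e T Dn Dt X d0 a a' η CJ X'
      (R / Real.sqrt (q * ε)) ((R + Q) / Real.sqrt (q * ε)) l).jl k ≤
      CJ * ((1 + X' ^ 2) / 4 * (η * (nT p T / q))) := by
    have h1 := mul_le_mul_of_nonneg_left hlz (show 0 ≤ CJ * ((1 + X' ^ 2) / 4) by positivity)
    refine le_trans (le_of_eq ?_) (h1.trans (le_of_eq (by ring)))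
    rw [Finset.mul_sum]
    refine Finset.sum_congr rfl fun l _ => ?_
    show (∏ x, p (l x)) * ∑ k, CJ * ((1 + X' ^ 2) / 4 * lzl ν E e T k l) = _
    rw [← Finset.mul_sum, ← Finset.mul_sum]
    ring
  have hrr0 : 0 < (R + Q) / Real.sqrt (q * ε) - R / Real.sqrt (q * ε) := by linarith
  refine (comb hε (by positivity) (by positivity) (by positivity) (by positivity)
    (by positivity) (by positivity) (by positivity) (by positivity)
    (B1 hW hDt haa hη hX hd0) (B2 hW hη) (B3 hW hDt) (Bcr hW hDt hC0 hη1 hR)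
    (Bcr hW hDt hC0 hη1 (show 0 < R + Q by linarith)) B6 B7 (Ben hEx hW hDt hEn)).trans ?_
  have hQ2 : ((R + Q) / Real.sqrt (q * ε) - R / Real.sqrt (q * ε)) ^ 2 = Q ^ 2 / (q * ε) := by
    have : (R + Q) / Real.sqrt (q * ε) - R / Real.sqrt (q * ε) = Q / Real.sqrt (q * ε) := by
      ring
    rw [this, div_pow, hss]
  rw [final_num hcg hκ hR hL ht' hQ hL' ht hε hq
    (show (R / Real.sqrt (q * ε)) ^ 2 = R ^ 2 / (q * ε) by rw [div_pow, hss])
    (show (κ / Real.sqrt (q * ε)) ^ 2 = κ ^ 2 / (q * ε) by rw [div_pow, hss]) hQ2]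
  exact mul_le_mul_of_nonneg_right hTot (nT_nonneg hW)

end P365Z0.S351
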