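import Vale.Agent.P365.Z0.S351.Path

/-!
# P365 Z0 (T1.5), block Z5: the pathwise inequality integrated at fixed labels.
-/

set_option linter.all false

namespace P365Z0.S351

open P365L P365O P365T1 P365L.Stat P365L.Z622 Vale.Agent.P365.J376 Matrix Complex MeasureTheory Set

variable {ι : Type} [Fintype ι] [DecidableEq ι]

theorem TW.Gd_sub (w : TW ι) (X d0 a' : ℝ) (v : ι → ℝ) : w.Gd X d0 a' v ⊆ w.T := by
  classical
  unfold TW.Gd
  exact Finset.filter_subset _ _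

theorem TW.Oc_sub (w : TW ι) (d : ι → ι → ℝ) (X d0 a' r r' L L' : ℝ) (v : ι → ℝ) :
    w.Oc d X d0 a' r r' L L' v ⊆ w.Gd X d0 a' v := by
  classical
  unfold TW.Oc
  exact Finset.filter_subset _ _

theorem TW.W_im (w : TW ι) (v : ι → ℝ) (x : ι) : (w.W v x).im = -w.e x := by
  simp [TW.W, WV]

theorem TW.Ok.W_neg {w : TW ι} {D c0 δ0 a' : ℝ} (h : w.Ok D c0 δ0 a') (v : ι → ℝ) (x : ι) :
    (w.W v x).im < 0 := by
  rw [w.W_im]
  linarith [h.e_pos x]

theorem TW.ee_W (w : TW ι) (v : ι → ℝ) (x : ι) : ee (w.W v) x = w.e x := by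
  unfold ee
  rw [w.W_im, neg_neg]

theorem TW.Mb_eq (w : TW ι) (B : Finset ι) (v : ι → ℝ) : w.Mb B v = tm w.A (w.W v) B := by
  unfold TW.Mb P365Z.SB tm
  exact Finset.sum_congr rfl fun x _ => by rw [w.ee_W]

/-- the bounds of the integrals at fixed labels -/
structure Bds where
  bad : ℝ
  out : ℝ
  tot : ℝ
  c1 : ℝ
  c2 : ℝ
  lo : Fin 4 → ℝ
  jl : Fin 4 → ℝ
  en : Fin 4 → ℝ

/-- the right-hand side as a function of the bounds -/
noncomputable def Bds.rhs (b : Bds) (cg r r' ρ L L' t t' : ℝ) : ℝ :=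
  2 * b.bad + b.out + 1 / L * b.c1 + 1 / L' * b.c2 +
      1 / (cg * ρ ^ 2) * ∑ k, 4 / 3 * (32 * b.lo k +
        (16 + 2 / t) * b.jl k +
        t * r ^ 2 * ((L' * (2 * L + 13) + 2) * b.tot) + 1 / (2 * t') * b.en k +
        2 * t' * r ^ 2 * (L * (1 / (cg * (r' - r) ^ 2) * ∑ j, b.en j +
          (b.bad + b.out)))) +
      1 / (cg * r ^ 2) * ∑ k, b.en k

/-- the bounds hold in the world `w` -/
structure Bds.Hold (b : Bds) (w : TW ι) (φ : Fin 4 → ι → ℝ) (d : ι → ι → ℝ)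
    (X d0 a' r r' L L' : ℝ) : Prop where
  bad : IB (Measure.pi w.ν) (fun v => tm w.A (w.W v) (w.T \ w.Gd X d0 a' v)) b.bad
  out : IB (Measure.pi w.ν) (fun v => tm w.A (w.W v) w.Tᶜ) b.out
  tot : IB (Measure.pi w.ν) (fun v => tm w.A (w.W v) w.T) b.tot
  c1 : IB (Measure.pi w.ν) (fun v => crowd w.A (w.W v) d (2 * r) w.T) b.c1
  c2 : IB (Measure.pi w.ν) (fun v => crowd w.A (w.W v) d (2 * r') w.T) b.c2
  lo : ∀ k, IB (Measure.pi w.ν) (fun v => los w.A (w.W v) (φ k) (w.Gd X d0 a' v)) (b.lo k)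
  jl : ∀ k, IB (Measure.pi w.ν) (fun v => JLf w.A (w.W v) (φ k) d r r' (w.Gd X d0 a' v)
    (w.Oc d X d0 a' r r' L L' v)) (b.jl k)
  en : ∀ k, IB (Measure.pi w.ν) (fun v => En w.A (w.W v) (φ k)) (b.en k)

/-- **the integrated inequality at fixed labels** -/
theorem fixed (hNear : NearZ) {w : TW ι} {D c0 δ0 a' : ℝ} (h : w.Ok D c0 δ0 a')
    {d : ι → ι → ℝ} (hd0 : ∀ x, d x x = 0) (hds : ∀ x y, d x y = d y x)
    (hdt : ∀ x y z, d x z ≤ d x y + d y z)
    {φ : Fin 4 → ι → ℝ} (hφ : ∀ k x y, |φ k x - φ k y| ≤ d x y) {cg : ℝ} (hcg : 0 < cg)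
    (hφ2 : ∀ x y, cg * d x y ^ 2 ≤ ∑ k, (φ k x - φ k y) ^ 2)
    {X d0 r r' ρ L L' t t' : ℝ}
    (hr : 0 < r) (hrr : r < r') (hρ : 0 < ρ) (hL : 0 < L) (hL' : 0 < L') (ht : 0 < t)
    (ht' : 0 < t') {b : Bds} (hb : b.Hold w φ d X d0 a' r r' L L') {G : (ι → ℝ) → ℝ}
    {c : ℝ} (hc : 0 ≤ c) (hG0 : ∀ v, 0 ≤ G v)
    (hG : ∀ v, G v ≤ c * farT w.A (w.W v) d ρ w.T) :
    ∫ v, G v ∂(Measure.pi w.ν) ≤ c * b.rhs cg r r' ρ L L' t t' := by
  classical
  have hrr' : 0 < r' - r := by linarith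
  have hE := IB.sum Finset.univ fun k _ => hb.en k
  have hBO := hb.bad.add hb.out
  have h1 := (((hb.bad.cmul (r := 2) (by norm_num)).add hb.out).add
    (hb.c1.cmul (r := 1 / L) (by positivity))).add (hb.c2.cmul (r := 1 / L') (by positivity))
  have h2 : ∀ k, IB (Measure.pi w.ν) (fun v => 4 / 3 * (32 * los w.A (w.W v) (φ k)
        (w.Gd X d0 a' v) +
        (16 + 2 / t) * JLf w.A (w.W v) (φ k) d r r' (w.Gd X d0 a' v)
          (w.Oc d X d0 a' r r' L L' v) +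
        t * r ^ 2 * ((L' * (2 * L + 13) + 2) * tm w.A (w.W v) w.T) +
        1 / (2 * t') * En w.A (w.W v) (φ k) +
        2 * t' * r ^ 2 * (L * (1 / (cg * (r' - r) ^ 2) * ∑ j, En w.A (w.W v) (φ j) +
          (tm w.A (w.W v) (w.T \ w.Gd X d0 a' v) + tm w.A (w.W v) w.Tᶜ)))))
      (4 / 3 * (32 * b.lo k + (16 + 2 / t) * b.jl k +
        t * r ^ 2 * ((L' * (2 * L + 13) + 2) * b.tot) + 1 / (2 * t') * b.en k +
        2 * t' * r ^ 2 * (L * (1 / (cg * (r' - r) ^ 2) * ∑ j, b.en j +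
          (b.bad + b.out))))) := fun k =>
    ((((((hb.lo k).cmul (r := 32) (by norm_num)).add
      ((hb.jl k).cmul (r := 16 + 2 / t) (by positivity))).add
      ((hb.tot.cmul (r := L' * (2 * L + 13) + 2) (by positivity)).cmul (r := t * r ^ 2)
        (by positivity))).add
      ((hb.en k).cmul (r := 1 / (2 * t')) (by positivity))).add
      ((((hE.cmul (r := 1 / (cg * (r' - r) ^ 2)) (by positivity)).add hBO).cmul (r := L)
        hL.le).cmul (r := 2 * t' * r ^ 2) (by positivity))).cmul (r := 4 / 3) (by norm_num)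
  have h3 := ((h1.add ((IB.sum Finset.univ fun k _ => h2 k).cmul (r := 1 / (cg * ρ ^ 2))
    (by positivity))).add (hE.cmul (r := 1 / (cg * r ^ 2)) (by positivity))).cmul (r := c) hc
  refine (integral_mono_of_nonneg (Filter.Eventually.of_forall hG0) h3.int
    (Filter.Eventually.of_forall fun v => ?_)).trans (h3.le.trans (le_of_eq ?_))
  · refine (hG v).trans (mul_le_mul_of_nonneg_left ?_ hc)
    have hW := h.W_neg v
    have hp := path hNear h.symm hW hd0 hds hdt hφ hcg hφ2 (T := w.T)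
      (Gd := w.Gd X d0 a' v) (O := w.Oc d X d0 a' r r' L L' v) (w.Gd_sub X d0 a' v)
      (w.Oc_sub d X d0 a' r r' L L' v) hr hrr hρ hL hL' ht ht'
      (fun x hx => by
        rw [← w.Mb_eq]
        exact (Finset.mem_filter.1 hx).2.1)
      (fun x hx => by
        rw [← w.Mb_eq]
        exact (Finset.mem_filter.1 hx).2.2)
      (fun x hx hx' => by
        rw [← w.Mb_eq, ← w.Mb_eq]
        by_contra hcon
        rw [not_or, not_lt, not_lt] at hcon
        exact hx' (Finset.mem_filter.2 ⟨hx, hcon.1, hcon.2⟩))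
    refine hp.trans ?_
    have hlos : ∀ k, los w.A (w.W v) (φ k) (w.Oc d X d0 a' r r' L L' v) ≤
        los w.A (w.W v) (φ k) (w.Gd X d0 a' v) := fun k =>
      Finset.sum_le_sum_of_subset_of_nonneg (w.Oc_sub d X d0 a' r r' L L' v) fun z _ _ =>
        mul_nonneg (ee_nonneg hW z) (mul_nonneg (mm_pos h.symm hW z).le (sq_nonneg _))
    have hs : ∑ k, 4 / 3 * (32 * los w.A (w.W v) (φ k) (w.Oc d X d0 a' r r' L L' v) +
        (16 + 2 / t) * JLf w.A (w.W v) (φ k) d r r' (w.Gd X d0 a' v)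
          (w.Oc d X d0 a' r r' L L' v) +
        t * r ^ 2 * ((L' * (2 * L + 13) + 2) * tm w.A (w.W v) w.T) +
        1 / (2 * t') * En w.A (w.W v) (φ k) +
        2 * t' * r ^ 2 * (L * (1 / (cg * (r' - r) ^ 2) * ∑ j, En w.A (w.W v) (φ j) +
          (tm w.A (w.W v) (w.T \ w.Gd X d0 a' v) + tm w.A (w.W v) w.Tᶜ)))) ≤
        ∑ k, 4 / 3 * (32 * los w.A (w.W v) (φ k) (w.Gd X d0 a' v) +
        (16 + 2 / t) * JLf w.A (w.W v) (φ k) d r r' (w.Gd X d0 a' v)
          (w.Oc d X d0 a' r r' L L' v) +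
        t * r ^ 2 * ((L' * (2 * L + 13) + 2) * tm w.A (w.W v) w.T) +
        1 / (2 * t') * En w.A (w.W v) (φ k) +
        2 * t' * r ^ 2 * (L * (1 / (cg * (r' - r) ^ 2) * ∑ j, En w.A (w.W v) (φ j) +
          (tm w.A (w.W v) (w.T \ w.Gd X d0 a' v) + tm w.A (w.W v) w.Tᶜ)))) :=
      Finset.sum_le_sum fun k _ => by
        have := hlos k
        linarith
    have hs2 := mul_le_mul_of_nonneg_left hs (show 0 ≤ 1 / (cg * ρ ^ 2) by positivity)
    linarith
  · rfl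

end P365Z0.S351
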