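import Vale.Agent.P365.Z0.S351.I5

/-!
# P365 Z0 (T1.5), block Z5: the pathwise inequality for the far mass seen from the traps.
-/

set_option linter.all false

namespace P365Z0.S351

open P365L P365O P365T1 P365L.Stat P365L.Z622 Vale.Agent.P365.J376 Matrix Complex MeasureTheory Set

variable {ι : Type} [Fintype ι] [DecidableEq ι] {A : Matrix ι ι ℝ} {W : ι → ℂ}
  {d : ι → ι → ℝ}

/-- absorbed mass of a set -/
noncomputable def tm (A : Matrix ι ι ℝ) (W : ι → ℂ) (S : Finset ι) : ℝ :=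
  ∑ x ∈ S, ee W x * mm A W x

/-- crowding functional -/
noncomputable def crowd (A : Matrix ι ι ℝ) (W : ι → ℂ) (d : ι → ι → ℝ) (ρ : ℝ) (T : Finset ι) :
    ℝ := ∑ x ∈ T, ee W x * mm A W x * tm A W (Bl d x ρ ∩ T)

/-- the kick sum -/
noncomputable def JLf (A : Matrix ι ι ℝ) (W : ι → ℂ) (φ : ι → ℝ) (d : ι → ι → ℝ) (r r' : ℝ)
    (Gd O : Finset ι) : ℝ :=
  ∑ x ∈ O, ∑ z ∈ (Bl d x r' ∩ Gd).erase x, (kap A W z x + lamS A W (Bl d x r ∩ Gd) z x) *
    (ee W z * ee W x * ‖Tm A W φ z x‖ ^ 2)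

/-- the loss over a set -/
noncomputable def los (A : Matrix ι ι ℝ) (W : ι → ℂ) (φ : ι → ℝ) (S : Finset ι) : ℝ :=
  ∑ z ∈ S, ee W z * (mm A W z * muf A W φ z ^ 2)

/-- the far mass seen from `T` -/
noncomputable def farT (A : Matrix ι ι ℝ) (W : ι → ℂ) (d : ι → ι → ℝ) (ρ : ℝ) (T : Finset ι) :
    ℝ := by
  classical
  exact ∑ x ∈ T, ∑ z ∈ Finset.univ.filter (fun z => ρ ≤ d z x), ee W z * ee W x * KK A W z x

theorem ee_nonneg (hW : ∀ x, (W x).im < 0) (x : ι) : 0 ≤ ee W x := (ee_pos hW x).le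

theorem col_le (hA : A.IsSymm) (hW : ∀ x, (W x).im < 0) (S : Finset ι) (x : ι) :
    ∑ z ∈ S, ee W z * ee W x * KK A W z x ≤ ee W x * mm A W x := by
  rw [mm_eq hA hW, Finset.mul_sum]
  refine le_trans (Finset.sum_le_sum_of_subset_of_nonneg (Finset.subset_univ S) fun z _ _ =>
    mul_nonneg (mul_nonneg (ee_nonneg hW z) (ee_nonneg hW x)) (KK_nonneg _ _)) (le_of_eq ?_)
  refine Finset.sum_congr rfl fun z _ => ?_
  rw [KK_symm hA z x]
  unfold ee
  ring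

theorem tm_nonneg (hA : A.IsSymm) (hW : ∀ x, (W x).im < 0) (S : Finset ι) : 0 ≤ tm A W S :=
  Finset.sum_nonneg fun x _ => mul_nonneg (ee_nonneg hW x) (mm_pos hA hW x).le

theorem tm_mono (hA : A.IsSymm) (hW : ∀ x, (W x).im < 0) {S S' : Finset ι} (h : S ⊆ S') :
    tm A W S ≤ tm A W S' :=
  Finset.sum_le_sum_of_subset_of_nonneg h fun x _ _ =>
    mul_nonneg (ee_nonneg hW x) (mm_pos hA hW x).le

theorem En_eq_ee (φ : ι → ℝ) :
    En A W φ = ∑ w, ∑ z, ee W z * ee W w * KK A W z w * (φ z - φ w) ^ 2 := by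
  unfold En ee
  rw [Finset.sum_comm]

/-- pairs at distance at least `ρ` in terms of the energies -/
theorem far_le (hW : ∀ x, (W x).im < 0) {φ : Fin 4 → ι → ℝ} {cg : ℝ} (hcg : 0 < cg)
    (hφ2 : ∀ x y, cg * d x y ^ 2 ≤ ∑ k, (φ k x - φ k y) ^ 2) {ρ : ℝ} (hρ : 0 < ρ)
    (O : Finset ι) (S : ι → Finset ι) (hS : ∀ x ∈ O, ∀ z ∈ S x, ρ ≤ d z x) :
    ∑ x ∈ O, ∑ z ∈ S x, ee W z * ee W x * KK A W z x ≤
      1 / (cg * ρ ^ 2) * ∑ k, ∑ x ∈ O, ∑ z ∈ S x,
        ee W z * ee W x * KK A W z x * (φ k z - φ k x) ^ 2 := by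
  rw [Finset.sum_comm, Finset.mul_sum]
  refine Finset.sum_le_sum fun x hx => ?_
  rw [Finset.sum_comm, Finset.mul_sum]
  refine Finset.sum_le_sum fun z hz => ?_
  rw [← Finset.mul_sum]
  have h1 : cg * ρ ^ 2 ≤ ∑ k, (φ k z - φ k x) ^ 2 := by
    refine le_trans ?_ (hφ2 z x)
    have := pow_le_pow_left₀ hρ.le (hS x hx z hz) 2
    exact mul_le_mul_of_nonneg_left this hcg.le
  have h2 : 0 ≤ ee W z * ee W x * KK A W z x :=
    mul_nonneg (mul_nonneg (ee_nonneg hW z) (ee_nonneg hW x)) (KK_nonneg _ _)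
  have h3 : 0 < cg * ρ ^ 2 := by positivity
  have h4 : 1 / (cg * ρ ^ 2) * (ee W z * ee W x * KK A W z x * ∑ k, (φ k z - φ k x) ^ 2) =
      ee W z * ee W x * KK A W z x * (1 / (cg * ρ ^ 2) * ∑ k, (φ k z - φ k x) ^ 2) := by ring
  rw [h4]
  refine le_mul_of_one_le_right h2 ?_
  rw [one_div, ← div_eq_inv_mul, le_div_iff₀ h3, one_mul]
  exact h1

omit [Fintype ι] in
theorem sum_union_le' {f : ι → ℝ} (hf : ∀ x, 0 ≤ f x) (s t : Finset ι) :
    ∑ x ∈ s ∪ t, f x ≤ ∑ x ∈ s, f x + ∑ x ∈ t, f x := by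
  have h := Finset.sum_union_inter (s₁ := s) (s₂ := t) (f := f)
  have h2 : 0 ≤ ∑ x ∈ s ∩ t, f x := Finset.sum_nonneg fun x _ => hf x
  linarith

/-- partial double sums of the energy -/
theorem part_le_En (hW : ∀ x, (W x).im < 0) (φ : ι → ℝ) (O : Finset ι) (S : ι → Finset ι) :
    ∑ x ∈ O, ∑ z ∈ S x, ee W z * ee W x * KK A W z x * (φ z - φ x) ^ 2 ≤ En A W φ := by
  rw [En_eq_ee]
  have h : ∀ x z, 0 ≤ ee W z * ee W x * KK A W z x * (φ z - φ x) ^ 2 := fun x z =>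
    mul_nonneg (mul_nonneg (mul_nonneg (ee_nonneg hW z) (ee_nonneg hW x)) (KK_nonneg _ _))
      (sq_nonneg _)
  refine (Finset.sum_le_sum fun x _ => Finset.sum_le_sum_of_subset_of_nonneg
    (Finset.subset_univ _) fun z _ _ => h x z).trans ?_
  exact Finset.sum_le_sum_of_subset_of_nonneg (Finset.subset_univ _) fun x _ _ =>
    Finset.sum_nonneg fun z _ => h x z

/-- far energy -/
theorem far_mass_le (hW : ∀ x, (W x).im < 0) (hds : ∀ x y, d x y = d y x)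
    {φ : Fin 4 → ι → ℝ} {cg : ℝ} (hcg : 0 < cg)
    (hφ2 : ∀ x y, cg * d x y ^ 2 ≤ ∑ k, (φ k x - φ k y) ^ 2) {ρ : ℝ} (hρ : 0 < ρ) :
    ∑ b, ∑ z ∈ (Bl d b ρ)ᶜ, ee W z * ee W b * KK A W z b ≤
      1 / (cg * ρ ^ 2) * ∑ k, En A W (φ k) := by
  refine (far_le hW hcg hφ2 hρ Finset.univ (fun b => (Bl d b ρ)ᶜ) fun x _ z hz => ?_).trans ?_
  · rw [Finset.mem_compl, mem_Bl, not_le] at hz
    exact hz.le
  · refine mul_le_mul_of_nonneg_left ?_ (by positivity)
    exact Finset.sum_le_sum fun k _ => part_le_En hW (φ k) _ _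

/-- `∑_{z∉Gd} e_z ∑_{x∈O} e_x K_zx ≤ mass off Gd` -/
theorem swap_mass (hA : A.IsSymm) (hW : ∀ x, (W x).im < 0) (O S : Finset ι) :
    ∑ x ∈ O, ∑ z ∈ S, ee W z * ee W x * KK A W z x ≤ tm A W S := by
  rw [Finset.sum_comm]
  refine Finset.sum_le_sum fun z _ => ?_
  refine le_trans (le_of_eq ?_) (col_le hA hW O z)
  refine Finset.sum_congr rfl fun x _ => ?_
  rw [KK_symm hA z x]
  ring

/-- **the pathwise inequality** -/
theorem path (hNear : NearZ) (hA : A.IsSymm) (hW : ∀ x, (W x).im < 0)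
    (hd0 : ∀ x, d x x = 0) (hds : ∀ x y, d x y = d y x)
    (hdt : ∀ x y z, d x z ≤ d x y + d y z)
    {φ : Fin 4 → ι → ℝ} (hφ : ∀ k x y, |φ k x - φ k y| ≤ d x y) {cg : ℝ} (hcg : 0 < cg)
    (hφ2 : ∀ x y, cg * d x y ^ 2 ≤ ∑ k, (φ k x - φ k y) ^ 2)
    {T Gd O : Finset ι} (hGT : Gd ⊆ T) (hOG : O ⊆ Gd) {r r' ρ L L' t t' : ℝ}
    (hr : 0 < r) (hrr : r < r') (hρ : 0 < ρ) (hL : 0 < L) (hL' : 0 < L') (ht : 0 < t)
    (ht' : 0 < t')
    (hO : ∀ w ∈ O, tm A W (Bl d w (2 * r) ∩ T) ≤ L)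
    (hO' : ∀ w ∈ O, tm A W (Bl d w (2 * r') ∩ T) ≤ L')
    (hOc : ∀ w ∈ Gd, w ∉ O → L < tm A W (Bl d w (2 * r) ∩ T) ∨
      L' < tm A W (Bl d w (2 * r') ∩ T)) :
    farT A W d ρ T ≤ 2 * tm A W (T \ Gd) + tm A W Tᶜ + 1 / L * crowd A W d (2 * r) T +
      1 / L' * crowd A W d (2 * r') T +
      1 / (cg * ρ ^ 2) * ∑ k, 4 / 3 * (32 * los A W (φ k) O +
        (16 + 2 / t) * JLf A W (φ k) d r r' Gd O +
        t * r ^ 2 * ((L' * (2 * L + 13) + 2) * tm A W T) + 1 / (2 * t') * En A W (φ k) +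
        2 * t' * r ^ 2 * (L * (1 / (cg * (r' - r) ^ 2) * ∑ j, En A W (φ j) +
          (tm A W (T \ Gd) + tm A W Tᶜ)))) +
      1 / (cg * r ^ 2) * ∑ k, En A W (φ k) := by
  classical
  have hOT : O ⊆ T := hOG.trans hGT
  have hkk : ∀ x z, 0 ≤ ee W z * ee W x * KK A W z x := fun x z =>
    mul_nonneg (mul_nonneg (ee_nonneg hW z) (ee_nonneg hW x)) (KK_nonneg _ _)
  have hem : ∀ x, 0 ≤ ee W x * mm A W x := fun x =>
    mul_nonneg (ee_nonneg hW x) (mm_pos hA hW x).le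
  -- mass off Gd
  have hGc : tm A W Gdᶜ = tm A W (T \ Gd) + tm A W Tᶜ := by
    unfold tm
    rw [← Finset.sum_union]
    · congr 1
      ext x
      simp only [Finset.mem_compl, Finset.mem_union, Finset.mem_sdiff]
      constructor
      · intro h
        by_cases hx : x ∈ T
        · exact Or.inl ⟨hx, h⟩
        · exact Or.inr hx
      · rintro (⟨_, h⟩ | h)
        · exact h
        · exact fun hg => h (hGT hg)
    · rw [Finset.disjoint_left]
      intro x hx hx'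
      exact (Finset.mem_compl.1 hx') (Finset.mem_sdiff.1 hx).1
  -- centres which are not allowed
  have hTO : tm A W (T \ O) ≤ tm A W (T \ Gd) + (1 / L * crowd A W d (2 * r) T +
      1 / L' * crowd A W d (2 * r') T) := by
    have h1 : tm A W (T \ O) = tm A W (T \ Gd) + tm A W (Gd \ O) := by
      unfold tm
      rw [← Finset.sum_union]
      · congr 1
        ext x
        simp only [Finset.mem_union, Finset.mem_sdiff]
        constructor
        · rintro ⟨h1, h2⟩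
          by_cases hx : x ∈ Gd
          · exact Or.inr ⟨hx, h2⟩
          · exact Or.inl ⟨h1, hx⟩
        · rintro (⟨h1, h2⟩ | ⟨h1, h2⟩)
          · exact ⟨h1, fun h => h2 (hOG h)⟩
          · exact ⟨hGT h1, h2⟩
      · rw [Finset.disjoint_left]
        intro x hx hx'
        exact (Finset.mem_sdiff.1 hx).2 (Finset.mem_sdiff.1 hx').1
    rw [h1]
    refine add_le_add le_rfl ?_
    unfold crowd
    rw [Finset.mul_sum, Finset.mul_sum, ← Finset.sum_add_distrib]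
    have hnn : ∀ x, 0 ≤ 1 / L * (ee W x * mm A W x * tm A W (Bl d x (2 * r) ∩ T)) ∧
        0 ≤ 1 / L' * (ee W x * mm A W x * tm A W (Bl d x (2 * r') ∩ T)) := fun x =>
      ⟨mul_nonneg (by positivity) (mul_nonneg (hem x) (tm_nonneg hA hW _)),
        mul_nonneg (by positivity) (mul_nonneg (hem x) (tm_nonneg hA hW _))⟩
    refine le_trans (Finset.sum_le_sum fun x hx => ?_) (Finset.sum_le_sum_of_subset_of_nonneg
      ((Finset.sdiff_subset (s := Gd) (t := O)).trans hGT) fun x _ _ =>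
        add_nonneg (hnn x).1 (hnn x).2)
    rw [Finset.mem_sdiff] at hx
    have hk : ∀ {M m : ℝ}, 0 < M → M < m → ee W x * mm A W x ≤
        1 / M * (ee W x * mm A W x * m) := by
      intro M m hM hm
      rw [← mul_assoc, mul_comm (1 / M), mul_assoc]
      refine le_mul_of_one_le_right (hem x) ?_
      rw [one_div, ← div_eq_inv_mul, le_div_iff₀ hM, one_mul]
      exact hm.le
    rcases hOc x hx.1 hx.2 with h | h
    · exact (hk hL h).trans (le_add_of_nonneg_right (hnn x).2)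
    · exact (hk hL' h).trans (le_add_of_nonneg_left (hnn x).1)
  -- split the far mass
  set F : ι → Finset ι := fun x => Finset.univ.filter (fun z => ρ ≤ d z x) with hF
  have hsplit : farT A W d ρ T = ∑ x ∈ T \ O, ∑ z ∈ F x, ee W z * ee W x * KK A W z x +
      ∑ x ∈ O, ∑ z ∈ F x, ee W z * ee W x * KK A W z x := by
    unfold farT
    rw [← Finset.sum_sdiff hOT]
  have hpart1 : ∑ x ∈ T \ O, ∑ z ∈ F x, ee W z * ee W x * KK A W z x ≤ tm A W (T \ O) :=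
    Finset.sum_le_sum fun x _ => col_le hA hW _ x
  have hpart2 : ∑ x ∈ O, ∑ z ∈ F x, ee W z * ee W x * KK A W z x ≤
      ∑ x ∈ O, ∑ z ∈ Gdᶜ, ee W z * ee W x * KK A W z x +
      (∑ x ∈ O, ∑ z ∈ (Bl d x r ∩ Gd).filter (fun z => ρ ≤ d z x),
        ee W z * ee W x * KK A W z x +
      ∑ x ∈ O, ∑ z ∈ (Bl d x r)ᶜ, ee W z * ee W x * KK A W z x) := by
    rw [← Finset.sum_add_distrib, ← Finset.sum_add_distrib]
    refine Finset.sum_le_sum fun x _ => ?_
    have hsub : F x ⊆ Gdᶜ ∪ ((Bl d x r ∩ Gd).filter (fun z => ρ ≤ d z x) ∪ (Bl d x r)ᶜ) := by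
      intro z hz
      rw [hF, Finset.mem_filter] at hz
      rw [Finset.mem_union, Finset.mem_union, Finset.mem_compl, Finset.mem_compl,
        Finset.mem_filter, Finset.mem_inter]
      by_cases h1 : z ∈ Gd
      · by_cases h2 : z ∈ Bl d x r
        · exact Or.inr (Or.inl ⟨⟨h2, h1⟩, hz.2⟩)
        · exact Or.inr (Or.inr h2)
      · exact Or.inl h1
    refine (Finset.sum_le_sum_of_subset_of_nonneg hsub fun z _ _ => hkk x z).trans ?_
    refine (sum_union_le' (hkk x) _ _).trans ?_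
    exact add_le_add le_rfl (sum_union_le' (hkk x) _ _)
  have hp1 : ∑ x ∈ O, ∑ z ∈ Gdᶜ, ee W z * ee W x * KK A W z x ≤ tm A W Gdᶜ :=
    swap_mass hA hW O Gdᶜ
  have hp3 : ∑ x ∈ O, ∑ z ∈ (Bl d x r)ᶜ, ee W z * ee W x * KK A W z x ≤
      1 / (cg * r ^ 2) * ∑ k, En A W (φ k) := by
    refine (far_le hW hcg hφ2 hr O (fun b => (Bl d b r)ᶜ) fun x _ z hz => ?_).trans ?_
    · rw [Finset.mem_compl, mem_Bl, not_le] at hz
      exact hz.le
    · refine mul_le_mul_of_nonneg_left ?_ (by positivity)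
      exact Finset.sum_le_sum fun k _ => part_le_En hW (φ k) _ _
  have hfar := far_mass_le (A := A) hW hds hcg hφ2 (show 0 < r' - r by linarith)
  have hp2 : ∑ x ∈ O, ∑ z ∈ (Bl d x r ∩ Gd).filter (fun z => ρ ≤ d z x),
        ee W z * ee W x * KK A W z x ≤
      1 / (cg * ρ ^ 2) * ∑ k, 4 / 3 * (32 * los A W (φ k) O +
        (16 + 2 / t) * JLf A W (φ k) d r r' Gd O +
        t * r ^ 2 * ((L' * (2 * L + 13) + 2) * tm A W T) + 1 / (2 * t') * En A W (φ k) +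
        2 * t' * r ^ 2 * (L * (1 / (cg * (r' - r) ^ 2) * ∑ j, En A W (φ j) +
          (tm A W (T \ Gd) + tm A W Tᶜ)))) := by
    refine (far_le hW hcg hφ2 hρ O
      (fun x => (Bl d x r ∩ Gd).filter (fun z => ρ ≤ d z x)) fun x _ z hz =>
        (Finset.mem_filter.1 hz).2).trans ?_
    refine mul_le_mul_of_nonneg_left (Finset.sum_le_sum fun k _ => ?_) (by positivity)
    have hn := hNear ι A W (φ k) d T Gd O r r' L L' t t' hA hW hd0 hds hdt (hφ k) hr.le hrr.le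
      hGT hOG hL.le hL'.le hO hO' ht ht'
    have h0 : ∑ x ∈ O, ∑ z ∈ (Bl d x r ∩ Gd).filter (fun z => ρ ≤ d z x),
        ee W z * ee W x * KK A W z x * (φ k z - φ k x) ^ 2 ≤
        ∑ w ∈ O, ∑ z ∈ Bl d w r ∩ Gd, ee W z * ee W w * KK A W z w * (φ k z - φ k w) ^ 2 :=
      Finset.sum_le_sum fun x _ => Finset.sum_le_sum_of_subset_of_nonneg
        (Finset.filter_subset _ _) fun z _ _ => mul_nonneg (hkk x z) (sq_nonneg _)
    refine h0.trans (hn.trans (mul_le_mul_of_nonneg_left ?_ (by norm_num)))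
    -- compare the terms
    have hJ : ∑ w ∈ O, ∑ z ∈ (Bl d w r' ∩ Gd).erase w,
        kap A W z w * (ee W z * ee W w * ‖Tm A W (φ k) z w‖ ^ 2) ≤
        JLf A W (φ k) d r r' Gd O := by
      refine Finset.sum_le_sum fun w _ => Finset.sum_le_sum fun z _ => ?_
      refine mul_le_mul_of_nonneg_right ?_
        (mul_nonneg (mul_nonneg (ee_nonneg hW z) (ee_nonneg hW w)) (sq_nonneg _))
      have := lamS_nonneg hA hW (Bl d w r ∩ Gd) z w
      linarith
    have hJL : ∑ w ∈ O, ∑ z ∈ (Bl d w r' ∩ Gd).erase w,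
        (kap A W z w + lamS A W (Bl d w r ∩ Gd) z w) *
          (ee W z * ee W w * ‖Tm A W (φ k) z w‖ ^ 2) = JLf A W (φ k) d r r' Gd O := rfl
    have hTm : ∑ w, ∑ z, ee W z * ee W w * ‖Tm A W (φ k) z w‖ ^ 2 =
        1 / 4 * En A W (φ k) := by
      rw [sum_Tm_gen hA hW, En_eq_ee]
    have hmO : ∑ w ∈ O, ee W w * mm A W w ≤ tm A W T := tm_mono hA hW hOT
    have hlo : ∑ w ∈ O, ee W w * (mm A W w * muf A W (φ k) w ^ 2) = los A W (φ k) O := rfl
    have hG : ∑ z ∈ Gdᶜ, ee W z * mm A W z = tm A W (T \ Gd) + tm A W Tᶜ := hGc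
    rw [hJL, hTm, hlo, hG]
    have c1 := mul_le_mul_of_nonneg_left hJ (show (0 : ℝ) ≤ 16 by norm_num)
    have c2 := mul_le_mul_of_nonneg_left hmO
      (show 0 ≤ t * r ^ 2 * (L' * (2 * L + 13) + 2) by positivity)
    have c3 := mul_le_mul_of_nonneg_left hfar (show 0 ≤ 2 * t' * r ^ 2 * L by positivity)
    have c4 : 2 / t' * (1 / 4 * En A W (φ k)) = 1 / (2 * t') * En A W (φ k) := by
      field_simp
      norm_num
    linarith
  rw [hsplit]
  linarith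

end P365Z0.S351
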