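import Vale.Agent.P365.Z0.S351.Fix
import Vale.Agent.P365.Z0.Iface

/-!
# P365 Z0 (T1.5), block Z5: literal statements of the three last pieces of `P365Z.FarT`.
-/

set_option linter.all false

namespace P365Z0.S351

open P365L P365O P365T1 P365L.Stat P365L.Z622 Vale.Agent.P365.J376 Matrix Complex MeasureTheory Set

/-- crowding constant -/
noncomputable def Sc (D C0 R : ℝ) : ℝ :=
  3 * Real.pi * D * (3 * Real.pi * D * (1 + C0 + 4 * C0 * R ^ 2) + 1)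

/-- bad mass per trap and per `ε` -/
noncomputable def Bc (D X d0 wd η : ℝ) : ℝ :=
  3 * (d0 + 2 * Real.pi * D / X + η / wd + Real.pi * D * η)

/-- the total, divided by `ε nT` (`wd = (a' - a)²`, `cg = 4 / π²`) -/
noncomputable def Tot (D C0 cg κ wd R L t' X d0 Q L' t CJ X' η : ℝ) : ℝ :=
  2 * Bc D X d0 wd η + Real.pi * η + 1 / L * Sc D C0 R + 1 / L' * Sc D C0 (R + Q) +
    1 / (cg * κ ^ 2) * (4 / 3 * (32 * ((1 + X ^ 2) / 4 * η) +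
      (16 + 2 / t) * (CJ * ((1 + X' ^ 2) / 4 * η)) +
      4 * (t * R ^ 2 * ((L' * (2 * L + 13) + 2) * (3 * Real.pi * D))) + 1 / (2 * t') * C0 +
      4 * (2 * t' * R ^ 2 * (L * (1 / (cg * Q ^ 2) * C0 + (Bc D X d0 wd η + Real.pi * η)))))) +
    1 / (cg * R ^ 2) * C0

/-- **numbers** (helper159) -/
def ParamsZ : Prop :=
  ∀ D C0 cg κ wd δ : ℝ, 0 < D → 0 < C0 → 0 < cg → 0 < κ → 0 < wd → 0 < δ →
    ∃ R L t' X d0 Q L' t : ℝ, 0 < R ∧ 0 < L ∧ 0 < t' ∧ 0 < X ∧ 0 < d0 ∧ 0 < Q ∧ 0 < L' ∧ 0 < t ∧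
      ∀ CJ X' : ℝ, 0 < CJ → 0 < X' → ∃ η : ℝ, 0 < η ∧ η ≤ 1 ∧
        Tot D C0 cg κ wd R L t' X d0 Q L' t CJ X' η ≤ δ

/-- **expectations at fixed labels** (helper680), any finite system, any distance -/
structure ExZ : Prop where
  tot : ∀ (ι : Type) [Fintype ι] [DecidableEq ι] (w : TW ι) (D c0 δ0 a' : ℝ), 0 < D →
    w.Ok D c0 δ0 a' →
    IB (Measure.pi w.ν) (fun v => tm w.A (w.W v) w.T) (∑ x ∈ w.T, w.e x * (Real.pi * D))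
  out : ∀ (ι : Type) [Fintype ι] [DecidableEq ι] (w : TW ι) (D c0 δ0 a' : ℝ), 0 < D →
    w.Ok D c0 δ0 a' → ∀ Dn : ι → ℝ, (∀ x ∈ w.Tᶜ, 0 ≤ Dn x ∧ DensLe (Dn x) (w.ν x)) →
    IB (Measure.pi w.ν) (fun v => tm w.A (w.W v) w.Tᶜ) (∑ x ∈ w.Tᶜ, w.e x * (Real.pi * Dn x))
  bad : ∀ (ι : Type) [Fintype ι] [DecidableEq ι] (w : TW ι) (D c0 δ0 a' : ℝ), 0 < D →
    w.Ok D c0 δ0 a' → ∀ X d0 a σ : ℝ, 0 < X → 0 < d0 → a < a' → 0 ≤ σ →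
    IB (Measure.pi w.ν) (fun v => tm w.A (w.W v) (w.T \ w.Gd X d0 a' v))
      (∑ x ∈ w.T, w.e x * (d0 + 2 * Real.pi * D / X + σ / (a' - a) ^ 2 +
        Real.pi * D * (Measure.pi w.ν (P365Z.Off w.A w.E w.e a σ x)).toReal))
  crowd : ∀ (ι : Type) [Fintype ι] [DecidableEq ι] (w : TW ι) (D c0 δ0 a' : ℝ), 0 < D →
    w.Ok D c0 δ0 a' → ∀ (d : ι → ι → ℝ) (ρ : ℝ),
    IB (Measure.pi w.ν) (fun v => crowd w.A (w.W v) d ρ w.T)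
      (∑ x ∈ w.T, w.e x * (Real.pi * D * (∑ y ∈ Bl d x ρ ∩ w.T, w.e y * (Real.pi * D) + 1)))
  en : ∀ (ι : Type) [Fintype ι] [DecidableEq ι] (w : TW ι) (D c0 δ0 a' : ℝ), 0 < D →
    w.Ok D c0 δ0 a' → ∀ φ : ι → ℝ, Integrable (fun v => En w.A (w.W v) φ) (Measure.pi w.ν)
  los : ∀ (ι : Type) [Fintype ι] [DecidableEq ι] (w : TW ι) (D c0 δ0 a' : ℝ), 0 < D →
    w.Ok D c0 δ0 a' → ∀ (φ : ι → ℝ) (X d0 : ℝ), 0 < X → 0 < d0 →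
    IB (Measure.pi w.ν) (fun v => los w.A (w.W v) φ (w.Gd X d0 a' v))
      ((1 + X ^ 2) / 4 * ∫ v, ∑ x ∈ w.T, w.e x * P365Z.Lz w.A (w.W v) φ x ∂(Measure.pi w.ν))
  lz : ∀ (ι : Type) [Fintype ι] [DecidableEq ι] (w : TW ι) (D c0 δ0 a' : ℝ), 0 < D →
    w.Ok D c0 δ0 a' → ∀ (φ : ι → ℝ) (x : ι),
    Integrable (fun v => P365Z.Lz w.A (w.W v) φ x) (Measure.pi w.ν)

end P365Z0.S351
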